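/-
S0241 blueprint, Mod E: structure of action lists when there are no ties.
-/
import Crest.Agent.Lib.IsingFIID.DynBasic

set_option autoImplicit false
universe u

namespace Crest.Agent.Lib.IsingFIID

namespace DynE

open MeasureTheory Filter Set
open scoped Classical Topology

variable {V : Type u}

theorem pairwise_actList (W : Finset V) (t : V → ℝ) (s : ℝ) :
    (actList W t s).Pairwise (fun a b => t a ≤ t b) := by
  unfold actList
  haveI : Std.Total (fun a b : V => t a ≤ t b) := ⟨fun a b => le_total (t a) (t b)⟩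
  haveI : IsTrans V (fun a b : V => t a ≤ t b) := ⟨fun _ _ _ h1 h2 => h1.trans h2⟩
  exact List.pairwise_insertionSort _ _

/-- no ties on `M` -/
def NoTies (M : Finset V) (t : V → ℝ) : Prop := ∀ u ∈ M, ∀ u' ∈ M, u' ≠ u → t u' ≠ t u

theorem NoTies.mono {M M' : Finset V} {t : V → ℝ} (h : NoTies M t) (hM : M' ⊆ M) : NoTies M' t :=
  fun u hu u' hu' hne => h u (hM hu) u' (hM hu') hne

theorem NoTies.eq {M : Finset V} {t : V → ℝ} (h : NoTies M t) {a b : V} (ha : a ∈ M) (hb : b ∈ M)
    (hab : t a = t b) : a = b := by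
  by_contra hne
  exact h b hb a ha hne hab

theorem mem_actList_of_noTies {M : Finset V} {t : V → ℝ} (h : NoTies M t) {s : ℝ} {u : V} :
    u ∈ actList M t s ↔ u ∈ M ∧ t u < s := by
  rw [mem_actList]
  constructor
  · exact fun hu => ⟨hu.1, hu.2.1⟩
  · exact fun hu => ⟨hu.1, hu.2, fun u' hu' hne => h u hu.1 u' hu' hne⟩

/-- Two sorted lists with the same elements coincide (no ties). -/
theorem eq_of_pairwise_of_mem {M : Finset V} {t : V → ℝ} (h : NoTies M t) {L L' : List V}
    (hL : L.Pairwise (fun a b => t a ≤ t b)) (hL' : L'.Pairwise (fun a b => t a ≤ t b)) (hn : L.Nodup)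
    (hn' : L'.Nodup) (hM : ∀ u ∈ L, u ∈ M) (hmem : ∀ u, u ∈ L ↔ u ∈ L') : L = L' := by
  refine List.Perm.eq_of_pairwise (le := fun a b => t a ≤ t b) ?_ hL hL' ((List.perm_ext_iff_of_nodup hn hn').mpr hmem)
  intro a b ha _ hab hba
  exact h.eq (hM a ha) (hM b ((hmem b).mpr ‹_›)) (le_antisymm hab hba)

/-- The action list of a subset. -/
theorem actList_filter {W M : Finset V} (hWM : W ⊆ M) {t : V → ℝ} (h : NoTies M t) (s : ℝ) :
    actList W t s = (actList M t s).filter (· ∈ W) := by
  refine eq_of_pairwise_of_mem (h.mono hWM) (pairwise_actList W t s) ((pairwise_actList M t s).filter _)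
    (nodup_actList W t s) ((nodup_actList M t s).filter _) (fun u hu => (mem_actList.mp hu).1) fun u => ?_
  rw [List.mem_filter, mem_actList_of_noTies (h.mono hWM), mem_actList_of_noTies h]
  simp only [decide_eq_true_eq]
  constructor
  · exact fun hu => ⟨⟨hWM hu.1, hu.2⟩, hu.1⟩
  · exact fun hu => ⟨hu.2, hu.1.2⟩

/-- The last element of an action list. -/
theorem actList_snoc {M : Finset V} {t : V → ℝ} (h : NoTies M t) {s : ℝ} {v : V} (hv : v ∈ M) (hvs : t v < s)
    (hmax : ∀ u ∈ M, t u < s → t u ≤ t v) : actList M t s = actList M t (t v) ++ [v] := by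
  have hnot : v ∉ actList M t (t v) := fun hc => lt_irrefl _ (mem_actList.mp hc).2.1
  refine eq_of_pairwise_of_mem h (pairwise_actList M t s) ?_ (nodup_actList M t s) ?_
    (fun u hu => (mem_actList.mp hu).1) fun u => ?_
  · rw [List.pairwise_append]
    refine ⟨pairwise_actList M t _, by simp, fun a ha b hb => ?_⟩
    have hb' : b = v := by simpa using hb
    rw [hb']
    exact (mem_actList.mp ha).2.1.le
  · rw [List.nodup_append]
    refine ⟨nodup_actList M t _, by simp, fun a ha b hb => ?_⟩
    have hb' : b = v := by simpa using hb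
    rw [hb']
    exact fun hc => hnot (hc ▸ ha)
  · rw [List.mem_append, mem_actList_of_noTies h, mem_actList_of_noTies h, List.mem_singleton]
    constructor
    · rintro ⟨hu, hus⟩
      by_cases huv : u = v
      · exact Or.inr huv
      · refine Or.inl ⟨hu, lt_of_le_of_ne (hmax u hu hus) ?_⟩
        intro he
        exact huv (h.eq hu hv he)
    · rintro (⟨hu, hus⟩ | rfl)
      · exact ⟨hu, hus.trans hvs⟩
      · exact ⟨hv, hvs⟩

end DynE

end Crest.Agent.Lib.IsingFIID
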