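/-
S0241 blueprint, Mod L-b (section 9): (L4) and (L5), i.e. `total_diff_le`, `side_diff_le`, `total_weighted_eq`,
here named `*_proved`.  Uses from `TwoSystem.lean` the deterministic lemmas and `norm_Qdiff_le` (L3) as black boxes.

Key points of the proof:
 * `Ae` (edge contribution) satisfies the fixed point equation `Ae = Fe + Lop Ae`;
 * for equivariant `Φ`, `B_s(Lop Φ) = B_{s+1}(Φ)` where `B_s(Φ) = E[c_p c'_p lev_s(y,p) Φ(p,y)]`
   (one step of reversal + transitivity of the automorphisms on 3-paths) -- this is the mass transport;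
 * hence `E[c_p c'_p Ae(p,y)] = E[c_p c'_p R(y,p) Fe(p,y)]`.
-/
import Crest.Agent.Lib.IsingFIID.TwoSystem

set_option autoImplicit false
set_option linter.unusedSectionVars false
universe u v

namespace Crest.Agent.Lib.IsingFIID

open MeasureTheory Filter
open scoped Classical Topology

section Deterministic

variable {V : Type u} {G : SimpleGraph V} [G.LocallyFinite] {D : ℕ} {θ θ' : ℝ} {b b' : V → V → ℝ}

/-- Standing hypotheses for a pair of slope families. -/
structure SlopePair (D : ℕ) (θ θ' : ℝ) (b b' : V → V → ℝ) : Prop where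
  θ0 : 0 ≤ θ
  θ0' : 0 ≤ θ'
  hs : (D : ℝ) * θ ^ 2 < 1
  hs' : (D : ℝ) * θ' ^ 2 < 1
  b0 : ∀ p y, 0 ≤ b p y
  b1 : ∀ p y, b p y ≤ θ
  b0' : ∀ p y, 0 ≤ b' p y
  b1' : ∀ p y, b' p y ≤ θ'

namespace SlopePair

theorem hmix (hS : SlopePair D θ θ' b b') : (D : ℝ) * θ * θ' < 1 := by
  have hD : (0 : ℝ) ≤ D := Nat.cast_nonneg D
  have h1 := hS.hs
  have h2 := hS.hs'
  nlinarith [mul_nonneg hD (sq_nonneg (θ - θ'))]

theorem hbb (hS : SlopePair D θ θ' b b') : (D : ℝ) * θ * θ < 1 := by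
  have h1 := hS.hs
  nlinarith

theorem hbb' (hS : SlopePair D θ θ' b b') : (D : ℝ) * θ' * θ' < 1 := by
  have h1 := hS.hs'
  nlinarith

end SlopePair

/-- `P_e = Q + Q' - 2R`. -/
noncomputable def Pe (G : SimpleGraph V) [G.LocallyFinite] (b b' : V → V → ℝ) (p y : V) : ℝ :=
  Qmix G b b p y + Qmix G b' b' p y - 2 * Qmix G b b' p y

/-- `F_e = Δb (b Q - b' Q')`. -/
noncomputable def Fe (G : SimpleGraph V) [G.LocallyFinite] (b b' : V → V → ℝ) (p y : V) : ℝ :=
  (b p y - b' p y) * (b p y * Qmix G b b p y - b' p y * Qmix G b' b' p y)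

/-- edge contribution `A_e = b b' P_e + F_e`. -/
noncomputable def Ae (G : SimpleGraph V) [G.LocallyFinite] (b b' : V → V → ℝ) (p y : V) : ℝ :=
  b p y * b' p y * Pe G b b' p y + Fe G b b' p y

theorem Ae_eq (p y : V) : Ae G b b' p y =
    b p y ^ 2 * Qmix G b b p y + b' p y ^ 2 * Qmix G b' b' p y - 2 * (b p y * b' p y * Qmix G b b' p y) := by
  simp only [Ae, Pe, Fe]; ring

theorem Pe_eq_sum_ch (hG : RegTree G D) (hS : SlopePair D θ θ' b b') {p y : V} (hpy : G.Adj p y) :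
    Pe G b b' p y = ∑ z ∈ ch G p y, Ae G b b' y z := by
  have h1 := Qmix_eq hG hS.θ0 hS.θ0 hS.hbb hS.b0 hS.b1 hS.b0 hS.b1 hpy
  have h2 := Qmix_eq hG hS.θ0' hS.θ0' hS.hbb' hS.b0' hS.b1' hS.b0' hS.b1' hpy
  have h3 := Qmix_eq hG hS.θ0 hS.θ0' hS.hmix hS.b0 hS.b1 hS.b0' hS.b1' hpy
  simp only [Pe]
  rw [h1, h2, h3]
  simp only [Ae_eq]
  rw [Finset.sum_sub_distrib, Finset.sum_add_distrib, ← Finset.mul_sum]
  have e1 : ∀ z, b y z ^ 2 * Qmix G b b y z = b y z * b y z * Qmix G b b y z := fun z => by ring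
  have e2 : ∀ z, b' y z ^ 2 * Qmix G b' b' y z = b' y z * b' y z * Qmix G b' b' y z := fun z => by ring
  simp only [e1, e2]
  ring

/-- The formula for the side sum. -/
theorem sideDiff_eq (hG : RegTree G D) (hS : SlopePair D θ θ' b b') {z w : V} (h : G.Adj z w) (n n' : ℝ) :
    sideDiff G n n' b b' z w =
      n ^ 2 * Qmix G b b z w + n' ^ 2 * Qmix G b' b' z w - 2 * (n * n' * Qmix G b b' z w) := by
  have s1 := (Qmix_le hG hS.θ0 hS.θ0 hS.hbb hS.b0 hS.b1 hS.b0 hS.b1 h).1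
  have s2 := (Qmix_le hG hS.θ0' hS.θ0' hS.hbb' hS.b0' hS.b1' hS.b0' hS.b1' h).1
  have s3 := (Qmix_le hG hS.θ0 hS.θ0' hS.hmix hS.b0 hS.b1 hS.b0' hS.b1' h).1
  have key : ∀ r, ∑ u ∈ desc G r z w, (n * pathProd G b w u - n' * pathProd G b' w u) ^ 2 =
      n ^ 2 * levMix G b b r z w + n' ^ 2 * levMix G b' b' r z w - 2 * (n * n' * levMix G b b' r z w) := by
    intro r
    rw [← sum_desc_pathProd hG b b h r, ← sum_desc_pathProd hG b' b' h r, ← sum_desc_pathProd hG b b' h r,
      Finset.mul_sum, Finset.mul_sum, Finset.mul_sum, Finset.mul_sum, ← Finset.sum_add_distrib,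
      ← Finset.sum_sub_distrib]
    exact Finset.sum_congr rfl fun u _ => by ring
  have hs : HasSum (fun r => n ^ 2 * levMix G b b r z w + n' ^ 2 * levMix G b' b' r z w
      - 2 * (n * n' * levMix G b b' r z w))
      (n ^ 2 * Qmix G b b z w + n' ^ 2 * Qmix G b' b' z w - 2 * (n * n' * Qmix G b b' z w)) :=
    ((s1.hasSum.mul_left _).add (s2.hasSum.mul_left _)).sub
      (((s3.hasSum.mul_left _)).mul_left _)
  simp only [sideDiff, key]
  exact hs.tsum_eq

theorem Pe_nonneg (hG : RegTree G D) (hS : SlopePair D θ θ' b b') {p y : V} (h : G.Adj p y) :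
    0 ≤ Pe G b b' p y := by
  have h1 := sideDiff_eq hG hS h 1 1
  have h2 : 0 ≤ sideDiff G 1 1 b b' p y :=
    tsum_nonneg fun r => Finset.sum_nonneg fun u _ => sq_nonneg _
  rw [h1] at h2
  simp only [Pe]
  linarith

theorem pathProd_self (b : V → V → ℝ) (v : V) : pathProd G b v v = 1 := by
  simp [pathProd, pathProdF]

theorem pathProd_of_mem_desc (hG : RegTree G D) {v y u : V} (h : G.Adj v y) {r : ℕ} (hu : u ∈ desc G r v y)
    (b : V → V → ℝ) : pathProd G b v u = b v y * pathProd G b y u := by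
  obtain ⟨h1, h2⟩ := (hG.mem_desc h r u).1 hu
  have hstep := hG.stepTo_of_mem_desc h hu
  simp only [pathProd, h1, h2, pathProdF, hstep]

/-- Mixed level sum on a sphere. -/
noncomputable def vLev (G : SimpleGraph V) [G.LocallyFinite] (b b' : V → V → ℝ) (r : ℕ) (v : V) : ℝ :=
  ∑ u ∈ sphere G v r, pathProd G b v u * pathProd G b' v u

theorem vLev_zero (v : V) : vLev G b b' 0 v = 1 := by
  simp [vLev, sphere, pathProd_self]

theorem vLev_succ (hG : RegTree G D) (r : ℕ) (v : V) :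
    vLev G b b' (r + 1) v = ∑ y ∈ G.neighborFinset v, b v y * b' v y * levMix G b b' r v y := by
  simp only [vLev]
  rw [hG.sum_sphere_succ]
  refine Finset.sum_congr rfl fun y hy => ?_
  have hvy : G.Adj v y := by simpa using hy
  rw [← sum_desc_pathProd hG b b' hvy r, Finset.mul_sum]
  refine Finset.sum_congr rfl fun u hu => ?_
  rw [pathProd_of_mem_desc hG hvy hu b, pathProd_of_mem_desc hG hvy hu b']
  ring

theorem hasSum_vLev (hG : RegTree G D) {θ₁ θ₂ : ℝ} (h1 : 0 ≤ θ₁) (h2 : 0 ≤ θ₂) (h12 : (D : ℝ) * θ₁ * θ₂ < 1)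
    (hb0 : ∀ p y, 0 ≤ b p y) (hb : ∀ p y, b p y ≤ θ₁) (hb0' : ∀ p y, 0 ≤ b' p y) (hb' : ∀ p y, b' p y ≤ θ₂)
    (v : V) : HasSum (fun r => vLev G b b' r v) (QmixV G b b' v) := by
  have hy : ∀ y ∈ G.neighborFinset v, HasSum (fun r => b v y * b' v y * levMix G b b' r v y)
      (b v y * b' v y * Qmix G b b' v y) := by
    intro y hy
    have hvy : G.Adj v y := by simpa using hy
    exact ((Qmix_le hG h1 h2 h12 hb0 hb hb0' hb' hvy).1.hasSum).mul_left _
  have hs := hasSum_sum hy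
  have hs' : HasSum (fun r => vLev G b b' (r + 1) v)
      (∑ y ∈ G.neighborFinset v, b v y * b' v y * Qmix G b b' v y) := by
    simp only [vLev_succ hG]
    exact hs
  have := (hasSum_nat_add_iff (f := fun r => vLev G b b' r v) 1).1 hs'
  simpa [QmixV, vLev_zero, add_comm] using this

/-- The formula for the total sum. -/
theorem totalDiff_eq (hG : RegTree G D) (hS : SlopePair D θ θ' b b') (c c' : ℝ) (v : V) :
    totalDiff G c c' b b' v =
      c ^ 2 * QmixV G b b v + c' ^ 2 * QmixV G b' b' v - 2 * (c * c' * QmixV G b b' v) := by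
  have s1 := hasSum_vLev hG hS.θ0 hS.θ0 hS.hbb hS.b0 hS.b1 hS.b0 hS.b1 v
  have s2 := hasSum_vLev hG hS.θ0' hS.θ0' hS.hbb' hS.b0' hS.b1' hS.b0' hS.b1' v
  have s3 := hasSum_vLev hG hS.θ0 hS.θ0' hS.hmix hS.b0 hS.b1 hS.b0' hS.b1' v
  have key : ∀ r, ∑ u ∈ sphere G v r, (c * pathProd G b v u - c' * pathProd G b' v u) ^ 2 =
      c ^ 2 * vLev G b b r v + c' ^ 2 * vLev G b' b' r v - 2 * (c * c' * vLev G b b' r v) := by
    intro r
    simp only [vLev]
    rw [Finset.mul_sum, Finset.mul_sum, Finset.mul_sum, Finset.mul_sum, ← Finset.sum_add_distrib,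
      ← Finset.sum_sub_distrib]
    exact Finset.sum_congr rfl fun u _ => by ring
  have hs := ((s1.mul_left (c ^ 2)).add (s2.mul_left (c' ^ 2))).sub
      ((s3.mul_left (c * c')).mul_left 2)
  simp only [totalDiff, key]
  exact hs.tsum_eq

/-- vertex version of `P`. -/
noncomputable def PV (G : SimpleGraph V) [G.LocallyFinite] (b b' : V → V → ℝ) (v : V) : ℝ :=
  QmixV G b b v + QmixV G b' b' v - 2 * QmixV G b b' v

theorem PV_eq_sum (v : V) : PV G b b' v = ∑ y ∈ G.neighborFinset v, Ae G b b' v y := by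
  simp only [PV, QmixV, Ae_eq]
  rw [Finset.sum_sub_distrib, Finset.sum_add_distrib, ← Finset.mul_sum]
  have e1 : ∀ z, b v z ^ 2 * Qmix G b b v z = b v z * b v z * Qmix G b b v z := fun z => by ring
  have e2 : ∀ z, b' v z ^ 2 * Qmix G b' b' v z = b' v z * b' v z * Qmix G b' b' v z := fun z => by ring
  simp only [e1, e2]
  ring

theorem PV_nonneg (hG : RegTree G D) (hS : SlopePair D θ θ' b b') (v : V) : 0 ≤ PV G b b' v := by
  have h1 := totalDiff_eq hG hS 1 1 v
  have h2 : 0 ≤ totalDiff G 1 1 b b' v :=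
    tsum_nonneg fun r => Finset.sum_nonneg fun u _ => sq_nonneg _
  rw [h1] at h2
  simp only [PV]
  linarith

end Deterministic

section Stochastic

open Hoeffding

variable {V : Type u} {G : SimpleGraph V} [G.LocallyFinite] {D : ℕ}
variable {E : Type v} [MeasurableSpace E] {κ : Measure E} [IsProbabilityMeasure κ]
variable {θ θ' θ₁ θ₂ : ℝ}

theorem levMix_aut (g : G ≃g G) (b b' : V → V → ℝ) (r : ℕ) (p y : V) :
    levMix G (fun a c => b (g a) (g c)) (fun a c => b' (g a) (g c)) r p y = levMix G b b' r (g p) (g y) := by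
  induction r generalizing p y with
  | zero => simp [levMix]
  | succ r ih =>
    simp only [levMix]
    rw [ch_map, Finset.sum_map]
    refine Finset.sum_congr rfl fun z _ => ?_
    rw [ih]
    rfl

/-- shorthand: level sums of two states -/
noncomputable def Lv (st₁ : FState G E θ₁) (st₂ : FState G E θ₂) (s : ℕ) (p y : V) (x : V → E) : ℝ :=
  levMix G (fun a c => st₁.b a c x) (fun a c => st₂.b a c x) s p y

/-- shorthand: `Qmix` of two states -/
noncomputable def Qm (st₁ : FState G E θ₁) (st₂ : FState G E θ₂) (p y : V) (x : V → E) : ℝ :=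
  Qmix G (fun a c => st₁.b a c x) (fun a c => st₂.b a c x) p y

/-- shorthand: `QmixV` of two states -/
noncomputable def QmV (st₁ : FState G E θ₁) (st₂ : FState G E θ₂) (v : V) (x : V → E) : ℝ :=
  QmixV G (fun a c => st₁.b a c x) (fun a c => st₂.b a c x) v

theorem b_comp (st : FState G E θ) (g : G ≃g G) (x : V → E) :
    (fun a c => st.b a c (x ∘ g)) = fun a c => st.b (g a) (g c) x := by
  funext a c; exact st.equiv_b g a c x

theorem Lv_aut (st₁ : FState G E θ₁) (st₂ : FState G E θ₂) (g : G ≃g G) (s : ℕ) (p y : V) (x : V → E) :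
    Lv st₁ st₂ s p y (x ∘ g) = Lv st₁ st₂ s (g p) (g y) x := by
  simp only [Lv, b_comp]
  exact levMix_aut g (fun a c => st₁.b a c x) (fun a c => st₂.b a c x) s p y

theorem Qm_aut (st₁ : FState G E θ₁) (st₂ : FState G E θ₂) (g : G ≃g G) (p y : V) (x : V → E) :
    Qm st₁ st₂ p y (x ∘ g) = Qm st₁ st₂ (g p) (g y) x := by
  simp only [Qm, Qmix, b_comp]
  exact tsum_congr fun r => levMix_aut g (fun a c => st₁.b a c x) (fun a c => st₂.b a c x) r p y

theorem QmV_aut (st₁ : FState G E θ₁) (st₂ : FState G E θ₂) (g : G ≃g G) (v : V) (x : V → E) :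
    QmV st₁ st₂ v (x ∘ g) = QmV st₁ st₂ (g v) x := by
  simp only [QmV, QmixV]
  rw [neighborFinset_map g v, Finset.sum_map]
  congr 1
  refine Finset.sum_congr rfl fun y _ => ?_
  have := Qm_aut st₁ st₂ g v y x
  simp only [Qm] at this
  rw [this]
  simp only [st₁.equiv_b, st₂.equiv_b]
  rfl

theorem measurable_Lv (st₁ : FState G E θ₁) (st₂ : FState G E θ₂) (s : ℕ) (p y : V) :
    Measurable (Lv st₁ st₂ s p y) := by
  induction s generalizing p y with
  | zero =>
    have : Lv st₁ st₂ 0 p y = fun _ => 1 := by funext x; simp [Lv, levMix]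
    rw [this]; exact measurable_const
  | succ s ih =>
    have : Lv st₁ st₂ (s + 1) p y
        = fun x => ∑ z ∈ ch G p y, st₁.b y z x * st₂.b y z x * Lv st₁ st₂ s y z x := by
      funext x; simp [Lv, levMix]
    rw [this]
    refine Finset.measurable_sum _ fun z _ => ?_
    exact ((st₁.meas_b y z).mul (st₂.meas_b y z)).mul (ih y z)

theorem bm_b (st : FState G E θ) (_hθ : 0 ≤ θ) (p y : V) : BM (st.b p y) :=
  ⟨st.meas_b p y, θ, fun x => by
    rw [abs_of_nonneg (st.b_nonneg p y x)]; exact st.b_le p y x⟩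

theorem bm_c (st : FState G E θ) (v : V) : BM (st.c v) :=
  ⟨st.meas_c v, 1, fun x => by
    rw [abs_of_nonneg (st.c_nonneg v x)]; exact st.c_le v x⟩

theorem Lv_bounds (hG : RegTree G D) (h1 : 0 ≤ θ₁) (h2 : 0 ≤ θ₂) (st₁ : FState G E θ₁) (st₂ : FState G E θ₂)
    (s : ℕ) {p y : V} (hpy : G.Adj p y) (x : V → E) :
    0 ≤ Lv st₁ st₂ s p y x ∧ Lv st₁ st₂ s p y x ≤ ((D : ℝ) * θ₁ * θ₂) ^ s :=
  levMix_le hG h1 h2 (fun p y => st₁.b_nonneg p y x) (fun p y => st₁.b_le p y x)
    (fun p y => st₂.b_nonneg p y x) (fun p y => st₂.b_le p y x) hpy s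

theorem bm_Lv (hG : RegTree G D) (h1 : 0 ≤ θ₁) (h2 : 0 ≤ θ₂) (st₁ : FState G E θ₁) (st₂ : FState G E θ₂)
    (s : ℕ) {p y : V} (hpy : G.Adj p y) : BM (Lv st₁ st₂ s p y) :=
  ⟨measurable_Lv st₁ st₂ s p y, ((D : ℝ) * θ₁ * θ₂) ^ s, fun x => by
    obtain ⟨h3, h4⟩ := Lv_bounds hG h1 h2 st₁ st₂ s hpy x
    rw [abs_of_nonneg h3]; exact h4⟩

theorem Qm_facts (hG : RegTree G D) (h1 : 0 ≤ θ₁) (h2 : 0 ≤ θ₂) (h12 : (D : ℝ) * θ₁ * θ₂ < 1)
    (st₁ : FState G E θ₁) (st₂ : FState G E θ₂) {p y : V} (hpy : G.Adj p y) (x : V → E) :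
    HasSum (fun r => Lv st₁ st₂ r p y x) (Qm st₁ st₂ p y x) ∧ 1 ≤ Qm st₁ st₂ p y x ∧
      Qm st₁ st₂ p y x ≤ 1 / (1 - (D : ℝ) * θ₁ * θ₂) := by
  obtain ⟨h3, h4, h5⟩ := Qmix_le hG h1 h2 h12 (fun p y => st₁.b_nonneg p y x) (fun p y => st₁.b_le p y x)
    (fun p y => st₂.b_nonneg p y x) (fun p y => st₂.b_le p y x) hpy
  exact ⟨h3.hasSum, h4, h5⟩

theorem bm_Qm (hG : RegTree G D) (h1 : 0 ≤ θ₁) (h2 : 0 ≤ θ₂) (h12 : (D : ℝ) * θ₁ * θ₂ < 1)
    (st₁ : FState G E θ₁) (st₂ : FState G E θ₂) {p y : V} (hpy : G.Adj p y) : BM (Qm st₁ st₂ p y) := by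
  refine ⟨?_, 1 / (1 - (D : ℝ) * θ₁ * θ₂), fun x => ?_⟩
  · refine measurable_of_tendsto_metrizable (f := fun n x => ∑ r ∈ Finset.range n, Lv st₁ st₂ r p y x)
      (fun n => Finset.measurable_sum _ fun r _ => measurable_Lv st₁ st₂ r p y) ?_
    exact tendsto_pi_nhds.2 fun x => (Qm_facts hG h1 h2 h12 st₁ st₂ hpy x).1.tendsto_sum_nat
  · obtain ⟨-, h4, h5⟩ := Qm_facts hG h1 h2 h12 st₁ st₂ hpy x
    rw [abs_of_nonneg (by linarith)]; exact h5

theorem bm_QmV (hG : RegTree G D) (h1 : 0 ≤ θ₁) (h2 : 0 ≤ θ₂) (h12 : (D : ℝ) * θ₁ * θ₂ < 1)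
    (st₁ : FState G E θ₁) (st₂ : FState G E θ₂) (v : V) : BM (QmV st₁ st₂ v) := by
  show BM (fun x => 1 + ∑ y ∈ G.neighborFinset v, st₁.b v y x * st₂.b v y x * Qm st₁ st₂ v y x)
  refine (BM.const 1).add (BM.finset_sum _ fun y hy => ?_)
  have hvy : G.Adj v y := by simpa using hy
  exact ((bm_b st₁ h1 v y).mul (bm_b st₂ h2 v y)).mul (bm_Qm hG h1 h2 h12 st₁ st₂ hvy)

/-- Edge families that are bounded measurable on adjacent pairs and equivariant. -/
structure AdjFam (G : SimpleGraph V) (Φ : V → V → (V → E) → ℝ) : Prop where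
  bm : ∀ p y, G.Adj p y → BM (Φ p y)
  equiv : ∀ (g : G ≃g G) (p y : V) (x : V → E), Φ p y (x ∘ g) = Φ (g p) (g y) x

variable (st : FState G E θ) (st' : FState G E θ')

/-- the shift operator on edge families -/
noncomputable def Lop (Φ : V → V → (V → E) → ℝ) (p y : V) (x : V → E) : ℝ :=
  st.b p y x * st'.b p y x * ∑ z ∈ ch G p y, Φ y z x

/-- `B_s(Φ) = E[c_p c'_p lev_s(y,p) Φ(p,y)]`. -/
noncomputable def Bs (κ : Measure E) (s : ℕ) (Φ : V → V → (V → E) → ℝ) (p y : V) : ℝ :=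
  ∫ x, st.c p x * st'.c p x * Lv st st' s y p x * Φ p y x ∂(Measure.infinitePi fun _ : V => κ)

variable {st st'}

theorem AdjFam.lop (hθ : 0 ≤ θ) (hθ' : 0 ≤ θ') {Φ : V → V → (V → E) → ℝ} (hΦ : AdjFam G Φ) :
    AdjFam G (Lop st st' Φ) := by
  constructor
  · intro p y _
    show BM (fun x => st.b p y x * st'.b p y x * ∑ z ∈ ch G p y, Φ y z x)
    refine ((bm_b st hθ p y).mul (bm_b st' hθ' p y)).mul (BM.finset_sum _ fun z hz => ?_)
    exact hΦ.bm y z (mem_ch.1 hz).1
  · intro g p y x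
    simp only [Lop]
    rw [st.equiv_b, st'.equiv_b, ch_map, Finset.sum_map]
    congr 1
    refine Finset.sum_congr rfl fun z _ => ?_
    rw [hΦ.equiv]
    rfl

/-- The integrand of `Bs`, as a function of the edge; automorphism invariance. -/
theorem Bs_eq_of_adj (hG : RegTree G D) (hθ : 0 ≤ θ) (hθ' : 0 ≤ θ') {Φ : V → V → (V → E) → ℝ} (hΦ : AdjFam G Φ)
    (s : ℕ) {p y p' y' : V} (h : G.Adj p y) (h' : G.Adj p' y') :
    Bs st st' κ s Φ p y = Bs st st' κ s Φ p' y' := by
  obtain ⟨g, hg⟩ := hG.exists_aut_of_isNB (l := [p, y]) (l' := [p', y']) h h' rfl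
  simp only [List.map_cons, List.map_nil, List.cons.injEq, and_true] at hg
  have hbm : BM (fun x => st.c p x * st'.c p x * Lv st st' s y p x * Φ p y x) :=
    (((bm_c st p).mul (bm_c st' p)).mul (bm_Lv hG hθ hθ' st st' s h.symm)).mul (hΦ.bm p y h)
  have key := integral_comp_equiv κ g.toEquiv hbm
  simp only [Bs]
  rw [← key]
  refine integral_congr_ae (Eventually.of_forall fun x => ?_)
  show st.c p (x ∘ g) * st'.c p (x ∘ g) * Lv st st' s y p (x ∘ g) * Φ p y (x ∘ g) = _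
  rw [st.equiv_c, st'.equiv_c, Lv_aut, hΦ.equiv, hg.1, hg.2]

/-- `ω`: the common value of the three-point integrals. -/
noncomputable def omegaB (st : FState G E θ) (st' : FState G E θ') (κ : Measure E) (s : ℕ)
    (Φ : V → V → (V → E) → ℝ) (p y z : V) : ℝ :=
  ∫ x, st.c y x * st'.c y x * (st.b y p x * st'.b y p x * Lv st st' s y p x) * Φ y z x
    ∂(Measure.infinitePi fun _ : V => κ)

theorem bm_omega (hG : RegTree G D) (hθ : 0 ≤ θ) (hθ' : 0 ≤ θ') {Φ : V → V → (V → E) → ℝ} (hΦ : AdjFam G Φ)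
    (s : ℕ) {p y z : V} (h : G.Adj p y) (hz : G.Adj y z) :
    BM (fun x => st.c y x * st'.c y x * (st.b y p x * st'.b y p x * Lv st st' s y p x) * Φ y z x) :=
  (((bm_c st y).mul (bm_c st' y)).mul
    (((bm_b st hθ y p).mul (bm_b st' hθ' y p)).mul (bm_Lv hG hθ hθ' st st' s h.symm))).mul (hΦ.bm y z hz)

theorem omegaB_eq (hG : RegTree G D) (hθ : 0 ≤ θ) (hθ' : 0 ≤ θ') {Φ : V → V → (V → E) → ℝ} (hΦ : AdjFam G Φ)
    (s : ℕ) {p y z p' y' z' : V} (h : G.Adj p y) (hz : G.Adj y z) (hne : z ≠ p)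
    (h' : G.Adj p' y') (hz' : G.Adj y' z') (hne' : z' ≠ p') :
    omegaB st st' κ s Φ p y z = omegaB st st' κ s Φ p' y' z' := by
  have hl : IsNB G [p, y, z] := ⟨h, hne, hz⟩
  have hl' : IsNB G [p', y', z'] := ⟨h', hne', hz'⟩
  obtain ⟨g, hg⟩ := hG.exists_aut_of_isNB hl hl' rfl
  simp only [List.map_cons, List.map_nil, List.cons.injEq, and_true] at hg
  obtain ⟨h1, h2, h3⟩ := hg
  have key := integral_comp_equiv κ g.toEquiv (bm_omega (st := st) (st' := st') hG hθ hθ' hΦ s h hz)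
  simp only [omegaB]
  rw [← key]
  refine integral_congr_ae (Eventually.of_forall fun x => ?_)
  show st.c y (x ∘ g) * st'.c y (x ∘ g) * (st.b y p (x ∘ g) * st'.b y p (x ∘ g) * Lv st st' s y p (x ∘ g))
    * Φ y z (x ∘ g) = _
  rw [st.equiv_c, st'.equiv_c, st.equiv_b, st'.equiv_b, Lv_aut, hΦ.equiv, h1, h2, h3]

/-- **Mass transport, one step.**  `B_s(Lop Φ) = B_{s+1}(Φ)`. -/
theorem Bs_Lop (hG : RegTree G D) (hθ : 0 ≤ θ) (hθ' : 0 ≤ θ')
    (hrev : ∀ p y, G.Adj p y → ∀ᵐ x ∂(Measure.infinitePi fun _ : V => κ), st.c p x * st.b p y x = st.c y x * st.b y p x)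
    (hrev' : ∀ p y, G.Adj p y → ∀ᵐ x ∂(Measure.infinitePi fun _ : V => κ), st'.c p x * st'.b p y x = st'.c y x * st'.b y p x)
    {Φ : V → V → (V → E) → ℝ} (hΦ : AdjFam G Φ) (s : ℕ) {p y : V} (h : G.Adj p y) :
    Bs st st' κ s (Lop st st' Φ) p y = Bs st st' κ (s + 1) Φ p y := by
  have hD2 := hG.two_le
  -- a child of `y`
  have hcard : (ch G p y).card = D := hG.card_ch h
  obtain ⟨z₀, hz₀⟩ : (ch G p y).Nonempty := by
    rw [← Finset.card_pos]; omega
  obtain ⟨hyz₀, hz₀p⟩ := mem_ch.1 hz₀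
  -- left side
  have hL : Bs st st' κ s (Lop st st' Φ) p y = (D : ℝ) * omegaB st st' κ s Φ p y z₀ := by
    have h1 : Bs st st' κ s (Lop st st' Φ) p y
        = ∫ x, ∑ z ∈ ch G p y, st.c y x * st'.c y x * (st.b y p x * st'.b y p x * Lv st st' s y p x) * Φ y z x
          ∂(Measure.infinitePi fun _ : V => κ) := by
      simp only [Bs, Lop]
      refine integral_congr_ae ?_
      filter_upwards [hrev p y h, hrev' p y h] with x hx hx'
      rw [← Finset.mul_sum]
      have e : st.c p x * st'.c p x * (st.b p y x * st'.b p y x)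
          = st.c y x * st'.c y x * (st.b y p x * st'.b y p x) := by
        calc st.c p x * st'.c p x * (st.b p y x * st'.b p y x)
            = (st.c p x * st.b p y x) * (st'.c p x * st'.b p y x) := by ring
          _ = (st.c y x * st.b y p x) * (st'.c y x * st'.b y p x) := by rw [hx, hx']
          _ = _ := by ring
      calc st.c p x * st'.c p x * Lv st st' s y p x * (st.b p y x * st'.b p y x * ∑ z ∈ ch G p y, Φ y z x)
          = (st.c p x * st'.c p x * (st.b p y x * st'.b p y x)) * Lv st st' s y p x * ∑ z ∈ ch G p y, Φ y z x := by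
            ring
        _ = _ := by rw [e]; ring
    rw [h1, integral_finsetSum]
    · have : ∀ z ∈ ch G p y, ∫ x, st.c y x * st'.c y x * (st.b y p x * st'.b y p x * Lv st st' s y p x) * Φ y z x
          ∂(Measure.infinitePi fun _ : V => κ) = omegaB st st' κ s Φ p y z₀ := by
        intro z hz
        obtain ⟨hyz, hzp⟩ := mem_ch.1 hz
        exact omegaB_eq hG hθ hθ' hΦ s h hyz hzp h hyz₀ hz₀p
      rw [Finset.sum_congr rfl this]
      simp [hcard]
    · intro z hz
      exact (bm_omega hG hθ hθ' hΦ s h (mem_ch.1 hz).1).integrable _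
  -- right side
  have hR : Bs st st' κ (s + 1) Φ p y = (D : ℝ) * omegaB st st' κ s Φ p y z₀ := by
    rw [Bs_eq_of_adj hG hθ hθ' hΦ (s + 1) h hyz₀]
    have hcard' : (ch G z₀ y).card = D := hG.card_ch hyz₀.symm
    have h1 : Bs st st' κ (s + 1) Φ y z₀
        = ∫ x, ∑ q ∈ ch G z₀ y, st.c y x * st'.c y x * (st.b y q x * st'.b y q x * Lv st st' s y q x) * Φ y z₀ x
          ∂(Measure.infinitePi fun _ : V => κ) := by
      simp only [Bs, Lv, levMix]
      refine integral_congr_ae (Eventually.of_forall fun x => ?_)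
      simp only [Finset.mul_sum, Finset.sum_mul]
    rw [h1, integral_finsetSum]
    · have : ∀ q ∈ ch G z₀ y, ∫ x, st.c y x * st'.c y x * (st.b y q x * st'.b y q x * Lv st st' s y q x) * Φ y z₀ x
          ∂(Measure.infinitePi fun _ : V => κ) = omegaB st st' κ s Φ p y z₀ := by
        intro q hq
        obtain ⟨hyq, hqz⟩ := mem_ch.1 hq
        exact omegaB_eq hG hθ hθ' hΦ s hyq.symm hyz₀ (Ne.symm hqz) h hyz₀ hz₀p
      rw [Finset.sum_congr rfl this]
      simp [hcard']
    · intro q hq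
      obtain ⟨hyq, -⟩ := mem_ch.1 hq
      exact (bm_omega hG hθ hθ' hΦ s hyq.symm hyz₀).integrable _
  rw [hL, hR]

section Main

variable (st st') in
/-- `A_e` as an edge family -/
noncomputable def AeF (p y : V) (x : V → E) : ℝ :=
  Ae G (fun a c => st.b a c x) (fun a c => st'.b a c x) p y

variable (st st') in
/-- `F_e` as an edge family -/
noncomputable def FeF (p y : V) (x : V → E) : ℝ :=
  Fe G (fun a c => st.b a c x) (fun a c => st'.b a c x) p y

theorem slopePair_of (hθ0 : 0 ≤ θ) (hθ0' : 0 ≤ θ') (hθ : (D : ℝ) * θ ^ 2 < 1) (hθ' : (D : ℝ) * θ' ^ 2 < 1)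
    (x : V → E) : SlopePair D θ θ' (fun a c => st.b a c x) (fun a c => st'.b a c x) :=
  ⟨hθ0, hθ0', hθ, hθ', fun p y => st.b_nonneg p y x, fun p y => st.b_le p y x,
    fun p y => st'.b_nonneg p y x, fun p y => st'.b_le p y x⟩

section

variable (hG : RegTree G D) (hθ0 : 0 ≤ θ) (hθ0' : 0 ≤ θ') (hθ : (D : ℝ) * θ ^ 2 < 1)
  (hθ' : (D : ℝ) * θ' ^ 2 < 1)

include hG hθ0 hθ0' hθ hθ'

theorem hbbS : (D : ℝ) * θ * θ < 1 := by nlinarith
theorem hbbS' : (D : ℝ) * θ' * θ' < 1 := by nlinarith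
theorem hmixS : (D : ℝ) * θ * θ' < 1 := by
  have hD : (0 : ℝ) ≤ D := Nat.cast_nonneg D
  nlinarith [mul_nonneg hD (sq_nonneg (θ - θ'))]

omit hθ0 hθ0' hθ' in
theorem theta_le_one : θ ≤ 1 := by
  have h2 : (2 : ℝ) ≤ D := by exact_mod_cast hG.two_le
  by_contra hc
  have hc' : 1 < θ := not_le.1 hc
  have h3 : 1 < θ ^ 2 := by nlinarith
  nlinarith

theorem adjFam_FeF : AdjFam G (FeF st st') := by
  have bbS := hbbS hG hθ0 hθ0' hθ hθ'
  have bbS' := hbbS' hG hθ0 hθ0' hθ hθ'
  constructor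
  · intro p y h
    have hb := bm_b st hθ0 p y
    have hb' := bm_b st' hθ0' p y
    have hQ := bm_Qm hG hθ0 hθ0 bbS st st h
    have hQ' := bm_Qm hG hθ0' hθ0' bbS' st' st' h
    exact (hb.sub hb').mul ((hb.mul hQ).sub (hb'.mul hQ'))
  · intro g p y x
    have e1 := Qm_aut st st g p y x
    have e2 := Qm_aut st' st' g p y x
    simp only [Qm] at e1 e2
    simp only [FeF, Fe, e1, e2]
    rw [st.equiv_b, st'.equiv_b]

theorem adjFam_AeF : AdjFam G (AeF st st') := by
  have bbS := hbbS hG hθ0 hθ0' hθ hθ'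
  have bbS' := hbbS' hG hθ0 hθ0' hθ hθ'
  have mS := hmixS hG hθ0 hθ0' hθ hθ'
  constructor
  · intro p y h
    have hb := bm_b st hθ0 p y
    have hb' := bm_b st' hθ0' p y
    have hQ := bm_Qm hG hθ0 hθ0 bbS st st h
    have hQ' := bm_Qm hG hθ0' hθ0' bbS' st' st' h
    have hR := bm_Qm hG hθ0 hθ0' mS st st' h
    exact ((hb.mul hb').mul ((hQ.add hQ').sub (hR.const_mul 2))).add
      ((adjFam_FeF hG hθ0 hθ0' hθ hθ').bm p y h)
  · intro g p y x
    have e1 := Qm_aut st st g p y x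
    have e2 := Qm_aut st' st' g p y x
    have e3 := Qm_aut st st' g p y x
    simp only [Qm] at e1 e2 e3
    simp only [AeF, Ae, Pe, Fe, e1, e2, e3]
    rw [st.equiv_b, st'.equiv_b]

theorem AeF_fix {p y : V} (h : G.Adj p y) (x : V → E) :
    AeF st st' p y x = Lop st st' (AeF st st') p y x + FeF st st' p y x := by
  have hS := slopePair_of (st := st) (st' := st') hθ0 hθ0' hθ hθ' x
  have := Pe_eq_sum_ch hG hS h
  simp only [AeF, FeF, Lop, Ae] at *
  rw [this]

variable (hrev : ∀ p y, G.Adj p y → ∀ᵐ x ∂(Measure.infinitePi fun _ : V => κ), st.c p x * st.b p y x = st.c y x * st.b y p x)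
  (hrev' : ∀ p y, G.Adj p y → ∀ᵐ x ∂(Measure.infinitePi fun _ : V => κ), st'.c p x * st'.b p y x = st'.c y x * st'.b y p x)

include hrev hrev'

theorem Bs_step (s : ℕ) {p y : V} (h : G.Adj p y) :
    Bs st st' κ s (AeF st st') p y = Bs st st' κ (s + 1) (AeF st st') p y + Bs st st' κ s (FeF st st') p y := by
  have hA := adjFam_AeF (st := st) (st' := st') hG hθ0 hθ0' hθ hθ'
  have hF := adjFam_FeF (st := st) (st' := st') hG hθ0 hθ0' hθ hθ'
  rw [← Bs_Lop hG hθ0 hθ0' hrev hrev' hA s h]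
  have hw := ((bm_c st p).mul (bm_c st' p)).mul (bm_Lv hG hθ0 hθ0' st st' s h.symm)
  simp only [Bs]
  rw [← integral_add (hw.mul ((hA.lop hθ0 hθ0').bm p y h)|>.integrable _) (hw.mul (hF.bm p y h)|>.integrable _)]
  refine integral_congr_ae (Eventually.of_forall fun x => ?_)
  show st.c p x * st'.c p x * Lv st st' s y p x * AeF st st' p y x = _
  rw [AeF_fix hG hθ0 hθ0' hθ hθ' h x]
  ring

theorem Bs_tele (N : ℕ) {p y : V} (h : G.Adj p y) :
    Bs st st' κ 0 (AeF st st') p y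
      = ∑ s ∈ Finset.range N, Bs st st' κ s (FeF st st') p y + Bs st st' κ N (AeF st st') p y := by
  induction N with
  | zero => simp
  | succ N ih =>
    rw [ih, Finset.sum_range_succ, Bs_step hG hθ0 hθ0' hθ hθ' hrev hrev' N h]
    ring

/-- **Mass transport identity** (L2). -/
theorem main_identity {p y : V} (h : G.Adj p y) :
    ∫ x, st.c p x * st'.c p x * AeF st st' p y x ∂(Measure.infinitePi fun _ : V => κ)
      = ∫ x, st.c p x * st'.c p x * Qm st st' y p x * FeF st st' p y x ∂(Measure.infinitePi fun _ : V => κ) := by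
  have mS := hmixS hG hθ0 hθ0' hθ hθ'
  have hD0 : (0 : ℝ) ≤ D := Nat.cast_nonneg D
  set ρ := (D : ℝ) * θ * θ' with hρ
  have hρ0 : 0 ≤ ρ := by positivity
  have hA := adjFam_AeF (st := st) (st' := st') hG hθ0 hθ0' hθ hθ'
  have hF := adjFam_FeF (st := st) (st' := st') hG hθ0 hθ0' hθ hθ'
  -- `Bs 0 Ae` is the left side
  have h0 : Bs st st' κ 0 (AeF st st') p y
      = ∫ x, st.c p x * st'.c p x * AeF st st' p y x ∂(Measure.infinitePi fun _ : V => κ) := by
    simp only [Bs]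
    refine integral_congr_ae (Eventually.of_forall fun x => ?_)
    simp [Lv, levMix]
  obtain ⟨CA, hCA⟩ := (hA.bm p y h).bdd
  obtain ⟨CF, hCF⟩ := (hF.bm p y h).bdd
  have hcc : ∀ x, 0 ≤ st.c p x * st'.c p x ∧ st.c p x * st'.c p x ≤ 1 := by
    intro x
    have a1 := st.c_nonneg p x
    have a2 := st'.c_nonneg p x
    have a3 := st.c_le p x
    have a4 := st'.c_le p x
    exact ⟨mul_nonneg a1 a2, by nlinarith⟩
  -- the remainder tends to 0
  have hrem : Tendsto (fun N => Bs st st' κ N (AeF st st') p y) atTop (𝓝 0) := by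
    have hb : ∀ N, ‖Bs st st' κ N (AeF st st') p y‖ ≤ ρ ^ N * CA := by
      intro N
      have := norm_integral_le_of_norm_le_const
        (μ := (Measure.infinitePi fun _ : V => κ))
        (f := fun x => st.c p x * st'.c p x * Lv st st' N y p x * AeF st st' p y x)
        (C := ρ ^ N * CA) (Eventually.of_forall fun x => ?_)
      · simpa [Bs] using this
      · obtain ⟨h1, h2⟩ := Lv_bounds hG hθ0 hθ0' st st' N h.symm x
        obtain ⟨h3, h4⟩ := hcc x
        have h5 := hCA x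
        rw [Real.norm_eq_abs, abs_mul, abs_mul, abs_of_nonneg h3, abs_of_nonneg h1]
        have h6 : st.c p x * st'.c p x * Lv st st' N y p x ≤ ρ ^ N := by
          calc _ ≤ 1 * ρ ^ N := mul_le_mul h4 h2 h1 zero_le_one
            _ = ρ ^ N := one_mul _
        exact mul_le_mul h6 h5 (abs_nonneg _) (by positivity)
    have h1 : Tendsto (fun N => ρ ^ N * CA) atTop (𝓝 (0 * CA)) :=
      (tendsto_pow_atTop_nhds_zero_of_lt_one hρ0 mS).mul_const _
    rw [zero_mul] at h1
    exact squeeze_zero_norm hb h1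
  -- the partial sums tend to the right side
  have hsum : Tendsto (fun N => ∑ s ∈ Finset.range N, Bs st st' κ s (FeF st st') p y) atTop
      (𝓝 (∫ x, st.c p x * st'.c p x * Qm st st' y p x * FeF st st' p y x ∂(Measure.infinitePi fun _ : V => κ))) := by
    have hpart : ∀ N, ∑ s ∈ Finset.range N, Bs st st' κ s (FeF st st') p y
        = ∫ x, st.c p x * st'.c p x * (∑ s ∈ Finset.range N, Lv st st' s y p x) * FeF st st' p y x
          ∂(Measure.infinitePi fun _ : V => κ) := by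
      intro N
      simp only [Bs]
      rw [← integral_finsetSum]
      · refine integral_congr_ae (Eventually.of_forall fun x => ?_)
        simp only [Finset.mul_sum, Finset.sum_mul]
      · intro s _
        exact (((bm_c st p).mul (bm_c st' p)).mul (bm_Lv hG hθ0 hθ0' st st' s h.symm)).mul (hF.bm p y h)
          |>.integrable _
    simp only [hpart]
    refine tendsto_integral_of_dominated_convergence (fun _ => 1 / (1 - ρ) * CF) ?_ ?_ ?_ ?_
    · intro N
      refine Measurable.aestronglyMeasurable ?_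
      exact (((bm_c st p).mul (bm_c st' p)).mul (BM.finset_sum _ fun s _ =>
        bm_Lv hG hθ0 hθ0' st st' s h.symm)).mul (hF.bm p y h) |>.meas
    · exact integrable_const _
    · intro N
      refine Eventually.of_forall fun x => ?_
      obtain ⟨h3, h4⟩ := hcc x
      obtain ⟨hs, h7, h8⟩ := Qm_facts hG hθ0 hθ0' mS st st' h.symm x
      have hnn : ∀ s, 0 ≤ Lv st st' s y p x := fun s => (Lv_bounds hG hθ0 hθ0' st st' s h.symm x).1
      have hle : ∑ s ∈ Finset.range N, Lv st st' s y p x ≤ Qm st st' y p x :=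
        sum_le_hasSum _ (fun s _ => hnn s) hs
      have hnn' : 0 ≤ ∑ s ∈ Finset.range N, Lv st st' s y p x := Finset.sum_nonneg fun s _ => hnn s
      rw [Real.norm_eq_abs, abs_mul, abs_mul, abs_of_nonneg h3, abs_of_nonneg hnn']
      have h6 : st.c p x * st'.c p x * ∑ s ∈ Finset.range N, Lv st st' s y p x ≤ 1 / (1 - ρ) := by
        calc _ ≤ 1 * (1 / (1 - ρ)) := mul_le_mul h4 (hle.trans h8) hnn' zero_le_one
          _ = _ := one_mul _
      have hp : 0 ≤ 1 / (1 - ρ) := by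
        have : 0 < 1 - ρ := by linarith
        positivity
      exact mul_le_mul h6 (hCF x) (abs_nonneg _) hp
    · refine Eventually.of_forall fun x => ?_
      obtain ⟨hs, -, -⟩ := Qm_facts hG hθ0 hθ0' mS st st' h.symm x
      exact ((hs.tendsto_sum_nat).const_mul _).mul_const _
  have hconv : Tendsto (fun N => ∑ s ∈ Finset.range N, Bs st st' κ s (FeF st st') p y) atTop
      (𝓝 (Bs st st' κ 0 (AeF st st') p y)) := by
    have hEq : ∀ N, ∑ s ∈ Finset.range N, Bs st st' κ s (FeF st st') p y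
        = Bs st st' κ 0 (AeF st st') p y - Bs st st' κ N (AeF st st') p y := by
      intro N
      rw [Bs_tele hG hθ0 hθ0' hθ hθ' hrev hrev' N h]
      ring
    simp only [hEq]
    simpa using tendsto_const_nhds.sub hrem
  rw [← h0]
  exact tendsto_nhds_unique hconv hsum

end

end Main

section Bounds

/-! ### Real inequalities -/

theorem ub_real {w Q₁ Q₂ d s G : ℝ} (hw0 : 0 ≤ w) (hw : w ≤ Q₂) (hQ₁ : 0 ≤ Q₁) (hs0 : 0 ≤ s) (hs : s ≤ 1) :
    w * (d ^ 2 * Q₁ + d * s * G) ≤ d ^ 2 * (Q₁ ^ 2 + Q₂ ^ 2) + G ^ 2 / 2 := by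
  have hQ₂ : 0 ≤ Q₂ := hw0.trans hw
  have h1 : w * Q₁ ≤ (Q₁ ^ 2 + Q₂ ^ 2) / 2 := by
    nlinarith [sq_nonneg (Q₁ - Q₂), mul_le_mul_of_nonneg_right hw hQ₁]
  have h2a : w * s ≤ Q₂ := by nlinarith
  have h2b : 0 ≤ w * s := mul_nonneg hw0 hs0
  have h2 : (w * s) ^ 2 ≤ Q₂ ^ 2 := by nlinarith
  have h3 : w * (d ^ 2 * Q₁) ≤ d ^ 2 * ((Q₁ ^ 2 + Q₂ ^ 2) / 2) := by
    have := mul_le_mul_of_nonneg_left h1 (sq_nonneg d)
    nlinarith
  have h4 : w * (d * s * G) ≤ d ^ 2 * Q₂ ^ 2 / 2 + G ^ 2 / 2 := by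
    have := mul_le_mul_of_nonneg_left h2 (sq_nonneg d)
    nlinarith [sq_nonneg (w * s * d - G)]
  have h5 := mul_nonneg (sq_nonneg d) (sq_nonneg Q₁)
  nlinarith

theorem td_real {c c' A A' R : ℝ} (hc : |c| ≤ 1) (hc' : |c'| ≤ 1) :
    c ^ 2 * A + c' ^ 2 * A' - 2 * (c * c' * R) ≤
      c * c' * (A + A' - 2 * R) + (c - c') ^ 2 * ((A + A') / 2 + 1) + (A - A') ^ 2 / 2 := by
  have ht : ((c + c') / 2) ^ 2 ≤ 1 := by
    have h1 := abs_le.1 hc
    have h2 := abs_le.1 hc'
    have : |(c + c') / 2| ≤ 1 := by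
      rw [abs_le]; constructor <;> linarith
    have h3 := abs_le.1 this
    nlinarith
  have h4 : (c - c') * ((c + c') / 2) * (A - A') ≤ (c - c') ^ 2 / 2 + (A - A') ^ 2 / 2 := by
    have := mul_le_mul_of_nonneg_left ht (sq_nonneg (c - c'))
    nlinarith [sq_nonneg ((c - c') * ((c + c') / 2) - (A - A'))]
  nlinarith [sq_nonneg (c - c')]

theorem K_real {b b' Q Q' Qo : ℝ} (h0 : 0 ≤ b) (h1 : b ≤ 1) (h0' : 0 ≤ b') (h1' : b' ≤ 1) :
    (b ^ 2 * Q - b' ^ 2 * Q') ^ 2 ≤
      8 * ((b - b') ^ 2 * (((Q + Q') / 2) ^ 2 + Qo ^ 2)) + 2 * (Q - Q') ^ 2 := by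
  set Qb := (Q + Q') / 2 with hQb
  set Gd := Q - Q' with hGd
  have e : b ^ 2 * Q - b' ^ 2 * Q' = (b ^ 2 - b' ^ 2) * Qb + (b ^ 2 + b' ^ 2) / 2 * Gd := by
    simp only [hQb, hGd]; ring
  have hA : ((b ^ 2 - b' ^ 2) * Qb) ^ 2 ≤ 4 * ((b - b') ^ 2 * Qb ^ 2) := by
    have h2 : (b + b') ^ 2 ≤ 4 := by nlinarith
    have e2 : ((b ^ 2 - b' ^ 2) * Qb) ^ 2 = (b + b') ^ 2 * ((b - b') ^ 2 * Qb ^ 2) := by ring
    rw [e2]
    exact mul_le_mul_of_nonneg_right h2 (by positivity)
  have hB : ((b ^ 2 + b' ^ 2) / 2 * Gd) ^ 2 ≤ Gd ^ 2 := by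
    have h2 : ((b ^ 2 + b' ^ 2) / 2) ^ 2 ≤ 1 := by
      have h3 : (b ^ 2 + b' ^ 2) / 2 ≤ 1 := by nlinarith
      have h4 : 0 ≤ (b ^ 2 + b' ^ 2) / 2 := by positivity
      nlinarith
    have e2 : ((b ^ 2 + b' ^ 2) / 2 * Gd) ^ 2 = ((b ^ 2 + b' ^ 2) / 2) ^ 2 * Gd ^ 2 := by ring
    rw [e2]
    calc _ ≤ 1 * Gd ^ 2 := mul_le_mul_of_nonneg_right h2 (sq_nonneg _)
      _ = _ := one_mul _
  rw [e]
  have h6 := mul_nonneg (sq_nonneg (b - b')) (sq_nonneg Qo)
  nlinarith [sq_nonneg ((b ^ 2 - b' ^ 2) * Qb - (b ^ 2 + b' ^ 2) / 2 * Gd)]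

theorem L3_real {b b' Qb Qo : ℝ} (h0 : 0 ≤ b) (h1 : b ≤ 1) (h0' : 0 ≤ b') (h1' : b' ≤ 1) :
    ((b ^ 2 - b' ^ 2) * Qb) ^ 2 ≤ 4 * ((b - b') ^ 2 * (Qb ^ 2 + Qo ^ 2)) := by
  have h2 : (b + b') ^ 2 ≤ 4 := by nlinarith
  have e2 : ((b ^ 2 - b' ^ 2) * Qb) ^ 2 = (b + b') ^ 2 * ((b - b') ^ 2 * Qb ^ 2) := by ring
  rw [e2]
  have h3 := mul_le_mul_of_nonneg_right h2 (mul_nonneg (sq_nonneg (b - b')) (sq_nonneg Qb))
  have h6 := mul_nonneg (sq_nonneg (b - b')) (sq_nonneg Qo)
  nlinarith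

/-! ### Bounded measurable fields -/

theorem Hoeffding.BM.pow2 {f : (V → E) → ℝ} (hf : BM f) : BM (fun x => f x ^ 2) := by
  simpa [sq] using hf.mul hf

theorem integral3 {f g k : (V → E) → ℝ} (hf : BM f) (hg : BM g) (hk : BM k) (ν : Measure (V → E))
    [IsFiniteMeasure ν] :
    Integrable (fun x => f x + g x + k x / 2) ν ∧
      ∫ x, (f x + g x + k x / 2) ∂ν = ∫ x, f x ∂ν + ∫ x, g x ∂ν + (∫ x, k x ∂ν) / 2 := by
  have h1 : Integrable (fun x => f x + g x) ν := (hf.integrable ν).add (hg.integrable ν)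
  have h2 : Integrable (fun x => k x / 2) ν := (hk.integrable ν).div_const 2
  refine ⟨h1.add h2, ?_⟩
  rw [integral_add h1 h2, integral_add (hf.integrable ν) (hg.integrable ν), integral_div]

theorem integral_adjFam_eq (hG : RegTree G D) {Φ : V → V → (V → E) → ℝ} (hΦ : AdjFam G Φ)
    {p y p' y' : V} (h : G.Adj p y) (h' : G.Adj p' y') :
    ∫ x, Φ p y x ∂(Measure.infinitePi fun _ : V => κ) = ∫ x, Φ p' y' x ∂(Measure.infinitePi fun _ : V => κ) := by
  obtain ⟨g, hg⟩ := hG.exists_aut_of_isNB (l := [p, y]) (l' := [p', y']) h h' rfl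
  simp only [List.map_cons, List.map_nil, List.cons.injEq, and_true] at hg
  have key := integral_comp_equiv κ g.toEquiv (hΦ.bm p y h)
  rw [← key]
  refine integral_congr_ae (Eventually.of_forall fun x => ?_)
  show Φ p y (x ∘ g) = _
  rw [hΦ.equiv, hg.1, hg.2]

variable (st st') in
/-- `X_{p,y}` -/
noncomputable def XX (κ : Measure E) (p y : V) : ℝ :=
  ∫ x, (st.b p y x - st'.b p y x) ^ 2 * (Qbar st st' p y x ^ 2 + Qbar st st' y p x ^ 2)
    ∂(Measure.infinitePi fun _ : V => κ)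

variable (st st') in
/-- `K_{p,y}²` as an edge family -/
noncomputable def KF (p y : V) (x : V → E) : ℝ :=
  (st.b p y x ^ 2 * Qm st st p y x - st'.b p y x ^ 2 * Qm st' st' p y x) ^ 2

theorem XX_nonneg (p y : V) : 0 ≤ XX st st' κ p y :=
  integral_nonneg fun x => by positivity

section

variable (hG : RegTree G D) (hθ0 : 0 ≤ θ) (hθ0' : 0 ≤ θ') (hθ : (D : ℝ) * θ ^ 2 < 1)
  (hθ' : (D : ℝ) * θ' ^ 2 < 1)

include hG hθ0 hθ0' hθ hθ'

theorem bm_Qbar {p y : V} (h : G.Adj p y) : BM (Qbar st st' p y) := by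
  have bbS := hbbS hG hθ0 hθ0' hθ hθ'
  have bbS' := hbbS' hG hθ0 hθ0' hθ hθ'
  have h1 := ((bm_Qm hG hθ0 hθ0 bbS st st h).add (bm_Qm hG hθ0' hθ0' bbS' st' st' h)).const_mul (1 / 2)
  have e : Qbar st st' p y = fun x => (1 / 2) * (Qm st st p y x + Qm st' st' p y x) := by
    funext x; simp only [Qbar, FState.Q, Qm]; ring
  rw [e]; exact h1

theorem bm_Qdiff {p y : V} (h : G.Adj p y) : BM (Qdiff st st' p y) := by
  have bbS := hbbS hG hθ0 hθ0' hθ hθ'
  have bbS' := hbbS' hG hθ0 hθ0' hθ hθ'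
  exact (bm_Qm hG hθ0 hθ0 bbS st st h).sub (bm_Qm hG hθ0' hθ0' bbS' st' st' h)

theorem Qbar_ge_one {p y : V} (h : G.Adj p y) (x : V → E) : 1 ≤ Qbar st st' p y x := by
  have bbS := hbbS hG hθ0 hθ0' hθ hθ'
  have bbS' := hbbS' hG hθ0 hθ0' hθ hθ'
  have h1 := (Qm_facts hG hθ0 hθ0 bbS st st h x).2.1
  have h2 := (Qm_facts hG hθ0' hθ0' bbS' st' st' h x).2.1
  simp only [Qm] at h1 h2
  simp only [Qbar, FState.Q]
  linarith

theorem Qm_le_Qbar {p y : V} (h : G.Adj p y) (x : V → E) : Qm st st' p y x ≤ Qbar st st' p y x := by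
  have hS := slopePair_of (st := st) (st' := st') hθ0 hθ0' hθ hθ' x
  have := Pe_nonneg hG hS h
  simp only [Pe] at this
  simp only [Qbar, FState.Q, Qm]
  linarith

theorem bm_XX {p y : V} (h : G.Adj p y) :
    BM (fun x => (st.b p y x - st'.b p y x) ^ 2 * (Qbar st st' p y x ^ 2 + Qbar st st' y p x ^ 2)) :=
  (((bm_b st hθ0 p y).sub (bm_b st' hθ0' p y)).pow2).mul
    ((bm_Qbar hG hθ0 hθ0' hθ hθ' h).pow2.add (bm_Qbar hG hθ0 hθ0' hθ hθ' h.symm).pow2)

theorem adjFam_KF : AdjFam G (KF st st') := by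
  have bbS := hbbS hG hθ0 hθ0' hθ hθ'
  have bbS' := hbbS' hG hθ0 hθ0' hθ hθ'
  constructor
  · intro p y h
    have hb := bm_b st hθ0 p y
    have hb' := bm_b st' hθ0' p y
    have hQ := bm_Qm hG hθ0 hθ0 bbS st st h
    have hQ' := bm_Qm hG hθ0' hθ0' bbS' st' st' h
    exact ((hb.pow2.mul hQ).sub (hb'.pow2.mul hQ')).pow2
  · intro g p y x
    simp only [KF, Qm_aut, st.equiv_b, st'.equiv_b]

/-- `∫ K² ≤ 8X + 2 ∫ G²` -/
theorem integral_KF_le {p y : V} (h : G.Adj p y) :
    ∫ x, KF st st' p y x ∂(Measure.infinitePi fun _ : V => κ) ≤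
      8 * XX st st' κ p y + 2 * ∫ x, Qdiff st st' p y x ^ 2 ∂(Measure.infinitePi fun _ : V => κ) := by
  have ht := theta_le_one hG hθ
  have ht' := theta_le_one hG hθ'
  have hX := (bm_XX (st := st) (st' := st') hG hθ0 hθ0' hθ hθ' h).integrable (Measure.infinitePi fun _ : V => κ)
  have hQ2 := (bm_Qdiff (st := st) (st' := st') hG hθ0 hθ0' hθ hθ' h).pow2.integrable (Measure.infinitePi fun _ : V => κ)
  simp only [XX]
  rw [← integral_const_mul, ← integral_const_mul, ← integral_add (hX.const_mul _) (hQ2.const_mul _)]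
  refine integral_mono (((adjFam_KF (st := st) (st' := st') hG hθ0 hθ0' hθ hθ').bm p y h).integrable _)
    ((hX.const_mul _).add (hQ2.const_mul _)) fun x => ?_
  exact K_real (st.b_nonneg p y x) ((st.b_le p y x).trans ht) (st'.b_nonneg p y x) ((st'.b_le p y x).trans ht')

/-- The transported term. -/
theorem T_le (hrev : ∀ p y, G.Adj p y → ∀ᵐ x ∂(Measure.infinitePi fun _ : V => κ), st.c p x * st.b p y x = st.c y x * st.b y p x)
    (hrev' : ∀ p y, G.Adj p y → ∀ᵐ x ∂(Measure.infinitePi fun _ : V => κ), st'.c p x * st'.b p y x = st'.c y x * st'.b y p x)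
    {p y : V} (h : G.Adj p y) :
    ∫ x, st.c p x * st'.c p x * AeF st st' p y x ∂(Measure.infinitePi fun _ : V => κ) ≤
      XX st st' κ p y + (∫ x, Qdiff st st' p y x ^ 2 ∂(Measure.infinitePi fun _ : V => κ)) / 2 := by
  have ht := theta_le_one hG hθ
  have ht' := theta_le_one hG hθ'
  have mS := hmixS hG hθ0 hθ0' hθ hθ'
  have hX := (bm_XX (st := st) (st' := st') hG hθ0 hθ0' hθ hθ' h).integrable (Measure.infinitePi fun _ : V => κ)
  have hQ2 := (bm_Qdiff (st := st) (st' := st') hG hθ0 hθ0' hθ hθ' h).pow2.integrable (Measure.infinitePi fun _ : V => κ)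
  rw [main_identity hG hθ0 hθ0' hθ hθ' hrev hrev' h]
  simp only [XX]
  rw [← integral_div, ← integral_add hX (hQ2.div_const _)]
  refine integral_mono ?_ (hX.add (hQ2.div_const _)) fun x => ?_
  · exact (((((bm_c st p).mul (bm_c st' p)).mul (bm_Qm hG hθ0 hθ0' mS st st' h.symm)).mul
      ((adjFam_FeF (st := st) (st' := st') hG hθ0 hθ0' hθ hθ').bm p y h)).integrable _)
  · have a1 := st.c_nonneg p x
    have a2 := st'.c_nonneg p x
    have a3 := st.c_le p x
    have a4 := st'.c_le p x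
    have b0 := st.b_nonneg p y x
    have b1 := (st.b_le p y x).trans ht
    have b0' := st'.b_nonneg p y x
    have b1' := (st'.b_le p y x).trans ht'
    obtain ⟨-, hR1, -⟩ := Qm_facts hG hθ0 hθ0' mS st st' h.symm x
    have hR2 := Qm_le_Qbar (st := st) (st' := st') hG hθ0 hθ0' hθ hθ' h.symm x
    have hQ1 := Qbar_ge_one (st := st) (st' := st') hG hθ0 hθ0' hθ hθ' h x
    have hcc : st.c p x * st'.c p x ≤ 1 := by nlinarith
    have hcc0 : 0 ≤ st.c p x * st'.c p x := mul_nonneg a1 a2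
    have hw0 : 0 ≤ st.c p x * st'.c p x * Qm st st' y p x := mul_nonneg hcc0 (by linarith)
    have hw : st.c p x * st'.c p x * Qm st st' y p x ≤ Qbar st st' y p x := by
      calc _ ≤ 1 * Qm st st' y p x := mul_le_mul_of_nonneg_right hcc (by linarith)
        _ ≤ _ := by linarith
    have key := ub_real (d := st.b p y x - st'.b p y x) (s := (st.b p y x + st'.b p y x) / 2)
      (G := Qdiff st st' p y x) hw0 hw (by linarith : 0 ≤ Qbar st st' p y x)
      (by linarith) (by linarith)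
    have eF : FeF st st' p y x = (st.b p y x - st'.b p y x) ^ 2 * Qbar st st' p y x
        + (st.b p y x - st'.b p y x) * ((st.b p y x + st'.b p y x) / 2) * Qdiff st st' p y x := by
      simp only [FeF, Fe, Qbar, Qdiff, FState.Q]
      ring
    rw [eF]
    exact key

theorem T0_eq_Bs (p y : V) :
    ∫ x, st.c p x * st'.c p x * AeF st st' p y x ∂(Measure.infinitePi fun _ : V => κ)
      = Bs st st' κ 0 (AeF st st') p y := by
  simp only [Bs]
  refine integral_congr_ae (Eventually.of_forall fun x => ?_)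
  simp [Lv, levMix]

theorem T0_adj {p y p' y' : V} (h : G.Adj p y) (h' : G.Adj p' y') :
    ∫ x, st.c p x * st'.c p x * AeF st st' p y x ∂(Measure.infinitePi fun _ : V => κ)
      = ∫ x, st.c p' x * st'.c p' x * AeF st st' p' y' x ∂(Measure.infinitePi fun _ : V => κ) := by
  rw [T0_eq_Bs hG hθ0 hθ0' hθ hθ', T0_eq_Bs hG hθ0 hθ0' hθ hθ']
  exact Bs_eq_of_adj hG hθ0 hθ0' (adjFam_AeF hG hθ0 hθ0' hθ hθ') 0 h h'

theorem bm_T0 {p y : V} (h : G.Adj p y) :
    BM (fun x => st.c p x * st'.c p x * AeF st st' p y x) :=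
  ((bm_c st p).mul (bm_c st' p)).mul ((adjFam_AeF (st := st) (st' := st') hG hθ0 hθ0' hθ hθ').bm p y h)

theorem integral_PV_eq {v y : V} (h : G.Adj v y) :
    ∫ x, st.c v x * st'.c v x * PV G (fun a c => st.b a c x) (fun a c => st'.b a c x) v
        ∂(Measure.infinitePi fun _ : V => κ)
      = ((D : ℝ) + 1) * ∫ x, st.c v x * st'.c v x * AeF st st' v y x ∂(Measure.infinitePi fun _ : V => κ) := by
  have e : ∀ x, st.c v x * st'.c v x * PV G (fun a c => st.b a c x) (fun a c => st'.b a c x) v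
      = ∑ y' ∈ G.neighborFinset v, st.c v x * st'.c v x * AeF st st' v y' x := by
    intro x
    rw [PV_eq_sum, Finset.mul_sum]
    rfl
  simp only [e]
  rw [integral_finsetSum]
  · have : ∀ y' ∈ G.neighborFinset v,
        ∫ x, st.c v x * st'.c v x * AeF st st' v y' x ∂(Measure.infinitePi fun _ : V => κ)
        = ∫ x, st.c v x * st'.c v x * AeF st st' v y x ∂(Measure.infinitePi fun _ : V => κ) := by
      intro y' hy'
      exact T0_adj hG hθ0 hθ0' hθ hθ' (by simpa using hy') h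
    rw [Finset.sum_congr rfl this]
    simp [hG.card_neighbor v]
  · intro y' hy'
    exact (bm_T0 hG hθ0 hθ0' hθ hθ' (by simpa using hy')).integrable _

theorem integral_Pe_eq {z w y : V} (hzw : G.Adj z w) (h : G.Adj w y) :
    ∫ x, st.c w x * st'.c w x * Pe G (fun a c => st.b a c x) (fun a c => st'.b a c x) z w
        ∂(Measure.infinitePi fun _ : V => κ)
      = (D : ℝ) * ∫ x, st.c w x * st'.c w x * AeF st st' w y x ∂(Measure.infinitePi fun _ : V => κ) := by
  have e : ∀ x, st.c w x * st'.c w x * Pe G (fun a c => st.b a c x) (fun a c => st'.b a c x) z w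
      = ∑ u ∈ ch G z w, st.c w x * st'.c w x * AeF st st' w u x := by
    intro x
    rw [Pe_eq_sum_ch hG (slopePair_of hθ0 hθ0' hθ hθ' x) hzw, Finset.mul_sum]
    rfl
  simp only [e]
  rw [integral_finsetSum]
  · have : ∀ u ∈ ch G z w,
        ∫ x, st.c w x * st'.c w x * AeF st st' w u x ∂(Measure.infinitePi fun _ : V => κ)
        = ∫ x, st.c w x * st'.c w x * AeF st st' w y x ∂(Measure.infinitePi fun _ : V => κ) := by
      intro u hu
      exact T0_adj hG hθ0 hθ0' hθ hθ' (mem_ch.1 hu).1 h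
    rw [Finset.sum_congr rfl this]
    simp [hG.card_ch hzw]
  · intro u hu
    exact (bm_T0 hG hθ0 hθ0' hθ hθ' (mem_ch.1 hu).1).integrable _

theorem bm_KF_sum (v : V) :
    BM (fun x => ∑ y' ∈ G.neighborFinset v, KF st st' v y' x) :=
  BM.finset_sum _ fun y' hy' =>
    (adjFam_KF (st := st) (st' := st') hG hθ0 hθ0' hθ hθ').bm v y' (by simpa using hy')

/-- The vertex difference of `Q`. -/
theorem integral_GV_le {v y : V} (h : G.Adj v y) :
    ∫ x, (QmV st st v x - QmV st' st' v x) ^ 2 ∂(Measure.infinitePi fun _ : V => κ) ≤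
      ((D : ℝ) + 1) ^ 2 * ∫ x, KF st st' v y x ∂(Measure.infinitePi fun _ : V => κ) := by
  have bbS := hbbS hG hθ0 hθ0' hθ hθ'
  have bbS' := hbbS' hG hθ0 hθ0' hθ hθ'
  have hKF := adjFam_KF (st := st) (st' := st') hG hθ0 hθ0' hθ hθ'
  have hsum := bm_KF_sum (st := st) (st' := st') hG hθ0 hθ0' hθ hθ' v
  have key : ∀ x, (QmV st st v x - QmV st' st' v x) ^ 2 ≤
      ((D : ℝ) + 1) * ∑ y' ∈ G.neighborFinset v, KF st st' v y' x := by
    intro x
    have e : QmV st st v x - QmV st' st' v x = ∑ y' ∈ G.neighborFinset v,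
        (st.b v y' x ^ 2 * Qm st st v y' x - st'.b v y' x ^ 2 * Qm st' st' v y' x) := by
      simp only [QmV, QmixV, Qm]
      rw [Finset.sum_sub_distrib]
      have e1 : ∀ z, st.b v z x ^ 2 * Qmix G (fun a c => st.b a c x) (fun a c => st.b a c x) v z
        = st.b v z x * st.b v z x * Qmix G (fun a c => st.b a c x) (fun a c => st.b a c x) v z := fun z => by ring
      have e2 : ∀ z, st'.b v z x ^ 2 * Qmix G (fun a c => st'.b a c x) (fun a c => st'.b a c x) v z
        = st'.b v z x * st'.b v z x * Qmix G (fun a c => st'.b a c x) (fun a c => st'.b a c x) v z := fun z => by ring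
      simp only [e1, e2]
      ring
    rw [e]
    have := sq_sum_le_card_mul_sum_sq (s := G.neighborFinset v)
      (f := fun y' => st.b v y' x ^ 2 * Qm st st v y' x - st'.b v y' x ^ 2 * Qm st' st' v y' x)
    rw [hG.card_neighbor v] at this
    simpa [KF] using this
  have hGV : BM (fun x => (QmV st st v x - QmV st' st' v x) ^ 2) :=
    ((bm_QmV hG hθ0 hθ0 bbS st st v).sub (bm_QmV hG hθ0' hθ0' bbS' st' st' v)).pow2
  calc _ ≤ ∫ x, ((D : ℝ) + 1) * ∑ y' ∈ G.neighborFinset v, KF st st' v y' x ∂(Measure.infinitePi fun _ : V => κ) :=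
        integral_mono (hGV.integrable _) ((hsum.integrable _).const_mul _) key
    _ = _ := by
      rw [integral_const_mul, integral_finsetSum _ fun y' hy' =>
        (hKF.bm v y' (by simpa using hy')).integrable _]
      have : ∀ y' ∈ G.neighborFinset v,
          ∫ x, KF st st' v y' x ∂(Measure.infinitePi fun _ : V => κ)
            = ∫ x, KF st st' v y x ∂(Measure.infinitePi fun _ : V => κ) := fun y' hy' =>
        integral_adjFam_eq hG hKF (by simpa using hy') h
      rw [Finset.sum_congr rfl this]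
      simp [hG.card_neighbor v]
      ring

/-- core of (L4), vertex version -/
theorem total_core
    (hrev : ∀ p y, G.Adj p y → ∀ᵐ x ∂(Measure.infinitePi fun _ : V => κ), st.c p x * st.b p y x = st.c y x * st.b y p x)
    (hrev' : ∀ p y, G.Adj p y → ∀ᵐ x ∂(Measure.infinitePi fun _ : V => κ), st'.c p x * st'.b p y x = st'.c y x * st'.b y p x)
    {v y : V} (h : G.Adj v y) :
    ∫ x, totalDiff G (st.c v x) (st'.c v x) (fun a b => st.b a b x) (fun a b => st'.b a b x) v
        ∂(Measure.infinitePi fun _ : V => κ) ≤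
      ((D : ℝ) + 1) * (XX st st' κ v y + (∫ x, Qdiff st st' v y x ^ 2 ∂(Measure.infinitePi fun _ : V => κ)) / 2)
        + ∫ x, (st.c v x - st'.c v x) ^ 2 * (QbarV st st' v x + 1) ∂(Measure.infinitePi fun _ : V => κ)
        + ((D : ℝ) + 1) ^ 2 * (8 * XX st st' κ v y
            + 2 * ∫ x, Qdiff st st' v y x ^ 2 ∂(Measure.infinitePi fun _ : V => κ)) / 2 := by
  have bbS := hbbS hG hθ0 hθ0' hθ hθ'
  have bbS' := hbbS' hG hθ0 hθ0' hθ hθ'
  have mS := hmixS hG hθ0 hθ0' hθ hθ'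
  have hD1 : (0 : ℝ) ≤ (D : ℝ) + 1 := by positivity
  have hcv := bm_c st v
  have hcv' := bm_c st' v
  have hQV := bm_QmV hG hθ0 hθ0 bbS st st v
  have hQV' := bm_QmV hG hθ0' hθ0' bbS' st' st' v
  have hRV := bm_QmV hG hθ0 hθ0' mS st st' v
  have hPV : BM (fun x => st.c v x * st'.c v x * PV G (fun a c => st.b a c x) (fun a c => st'.b a c x) v) :=
    (hcv.mul hcv').mul ((hQV.add hQV').sub (hRV.const_mul 2))
  have hZ : BM (fun x => (st.c v x - st'.c v x) ^ 2 * (QbarV st st' v x + 1)) := by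
    refine ((hcv.sub hcv').pow2).mul (BM.add ?_ (BM.const 1))
    have e : QbarV st st' v = fun x => (1 / 2) * (QmV st st v x + QmV st' st' v x) := by
      funext x; simp only [QbarV, FState.QV, QmV]; ring
    rw [e]; exact (hQV.add hQV').const_mul _
  have hGV : BM (fun x => (QmV st st v x - QmV st' st' v x) ^ 2) := (hQV.sub hQV').pow2
  have hLHS : BM (fun x => st.c v x ^ 2 * QmV st st v x + st'.c v x ^ 2 * QmV st' st' v x
      - 2 * (st.c v x * st'.c v x * QmV st st' v x)) :=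
    ((hcv.pow2.mul hQV).add (hcv'.pow2.mul hQV')).sub (((hcv.mul hcv').mul hRV).const_mul 2)
  have e1 : ∀ x, totalDiff G (st.c v x) (st'.c v x) (fun a b => st.b a b x) (fun a b => st'.b a b x) v
      = st.c v x ^ 2 * QmV st st v x + st'.c v x ^ 2 * QmV st' st' v x
        - 2 * (st.c v x * st'.c v x * QmV st st' v x) := fun x =>
    totalDiff_eq hG (slopePair_of hθ0 hθ0' hθ hθ' x) _ _ v
  simp only [e1]
  have hpt : ∀ x, st.c v x ^ 2 * QmV st st v x + st'.c v x ^ 2 * QmV st' st' v x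
        - 2 * (st.c v x * st'.c v x * QmV st st' v x) ≤
      st.c v x * st'.c v x * PV G (fun a c => st.b a c x) (fun a c => st'.b a c x) v
        + (st.c v x - st'.c v x) ^ 2 * (QbarV st st' v x + 1)
        + (QmV st st v x - QmV st' st' v x) ^ 2 / 2 := by
    intro x
    have a1 : |st.c v x| ≤ 1 := by
      rw [abs_of_nonneg (st.c_nonneg v x)]; exact st.c_le v x
    have a2 : |st'.c v x| ≤ 1 := by
      rw [abs_of_nonneg (st'.c_nonneg v x)]; exact st'.c_le v x
    exact td_real a1 a2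
  obtain ⟨hRHSi, e2⟩ := integral3 hPV hZ hGV (Measure.infinitePi fun _ : V => κ)
  have step1 := integral_mono (hLHS.integrable (Measure.infinitePi fun _ : V => κ)) hRHSi hpt
  refine step1.trans ?_
  rw [e2, integral_PV_eq hG hθ0 hθ0' hθ hθ' h]
  have h3 := T_le (st := st) (st' := st') hG hθ0 hθ0' hθ hθ' hrev hrev' h
  have h4 := integral_GV_le (st := st) (st' := st') (κ := κ) hG hθ0 hθ0' hθ hθ' h
  have h5 := integral_KF_le (st := st) (st' := st') (κ := κ) hG hθ0 hθ0' hθ hθ' h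
  have h6 := mul_le_mul_of_nonneg_left h3 hD1
  have h7 := mul_le_mul_of_nonneg_left h5 (sq_nonneg ((D : ℝ) + 1))
  linarith

/-- core of (L4), pair version, for bounded measurable prefactors -/
theorem side_core
    (hrev : ∀ p y, G.Adj p y → ∀ᵐ x ∂(Measure.infinitePi fun _ : V => κ), st.c p x * st.b p y x = st.c y x * st.b y p x)
    (hrev' : ∀ p y, G.Adj p y → ∀ᵐ x ∂(Measure.infinitePi fun _ : V => κ), st'.c p x * st'.b p y x = st'.c y x * st'.b y p x)
    {z w y : V} (hzw : G.Adj z w) (h : G.Adj w y) {n n' : (V → E) → ℝ} (hn : BM n) (hn' : BM n')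
    (hnb : ∀ᵐ x ∂(Measure.infinitePi fun _ : V => κ), |n x| ≤ st.c w x)
    (hnb' : ∀ᵐ x ∂(Measure.infinitePi fun _ : V => κ), |n' x| ≤ st'.c w x) :
    ∫ x, sideDiff G (n x) (n' x) (fun a b => st.b a b x) (fun a b => st'.b a b x) z w
        ∂(Measure.infinitePi fun _ : V => κ) ≤
      (D : ℝ) * (XX st st' κ w y + (∫ x, Qdiff st st' w y x ^ 2 ∂(Measure.infinitePi fun _ : V => κ)) / 2)
        + ∫ x, (n x - n' x) ^ 2 * (Qbar st st' z w x + 1) ∂(Measure.infinitePi fun _ : V => κ)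
        + (∫ x, Qdiff st st' z w x ^ 2 ∂(Measure.infinitePi fun _ : V => κ)) / 2 := by
  have bbS := hbbS hG hθ0 hθ0' hθ hθ'
  have bbS' := hbbS' hG hθ0 hθ0' hθ hθ'
  have mS := hmixS hG hθ0 hθ0' hθ hθ'
  have hD0 : (0 : ℝ) ≤ (D : ℝ) := by positivity
  have hQ := bm_Qm hG hθ0 hθ0 bbS st st hzw
  have hQ' := bm_Qm hG hθ0' hθ0' bbS' st' st' hzw
  have hR := bm_Qm hG hθ0 hθ0' mS st st' hzw
  have hPe : BM (fun x => st.c w x * st'.c w x * Pe G (fun a c => st.b a c x) (fun a c => st'.b a c x) z w) :=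
    ((bm_c st w).mul (bm_c st' w)).mul ((hQ.add hQ').sub (hR.const_mul 2))
  have hZ : BM (fun x => (n x - n' x) ^ 2 * (Qbar st st' z w x + 1)) :=
    ((hn.sub hn').pow2).mul ((bm_Qbar hG hθ0 hθ0' hθ hθ' hzw).add (BM.const 1))
  have hGd : BM (fun x => Qdiff st st' z w x ^ 2) := (bm_Qdiff hG hθ0 hθ0' hθ hθ' hzw).pow2
  have hLHS : BM (fun x => n x ^ 2 * Qm st st z w x + n' x ^ 2 * Qm st' st' z w x
      - 2 * (n x * n' x * Qm st st' z w x)) :=
    ((hn.pow2.mul hQ).add (hn'.pow2.mul hQ')).sub (((hn.mul hn').mul hR).const_mul 2)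
  have e1 : ∀ x, sideDiff G (n x) (n' x) (fun a b => st.b a b x) (fun a b => st'.b a b x) z w
      = n x ^ 2 * Qm st st z w x + n' x ^ 2 * Qm st' st' z w x
        - 2 * (n x * n' x * Qm st st' z w x) := fun x =>
    sideDiff_eq hG (slopePair_of hθ0 hθ0' hθ hθ' x) hzw _ _
  simp only [e1]
  have hpt : ∀ᵐ x ∂(Measure.infinitePi fun _ : V => κ), n x ^ 2 * Qm st st z w x + n' x ^ 2 * Qm st' st' z w x
        - 2 * (n x * n' x * Qm st st' z w x) ≤
      st.c w x * st'.c w x * Pe G (fun a c => st.b a c x) (fun a c => st'.b a c x) z w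
        + (n x - n' x) ^ 2 * (Qbar st st' z w x + 1)
        + Qdiff st st' z w x ^ 2 / 2 := by
    filter_upwards [hnb, hnb'] with x hx hx'
    have a1 : |n x| ≤ 1 := hx.trans (st.c_le w x)
    have a2 : |n' x| ≤ 1 := hx'.trans (st'.c_le w x)
    have key := td_real (A := Qm st st z w x) (A' := Qm st' st' z w x) (R := Qm st st' z w x) a1 a2
    have hP := Pe_nonneg hG (slopePair_of (st := st) (st' := st') hθ0 hθ0' hθ hθ' x) hzw
    have hnn : n x * n' x ≤ st.c w x * st'.c w x := by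
      calc n x * n' x ≤ |n x * n' x| := le_abs_self _
        _ = |n x| * |n' x| := abs_mul _ _
        _ ≤ _ := mul_le_mul hx hx' (abs_nonneg _) (st.c_nonneg w x)
    have h1 := mul_le_mul_of_nonneg_right hnn hP
    have eP : Pe G (fun a c => st.b a c x) (fun a c => st'.b a c x) z w
        = Qm st st z w x + Qm st' st' z w x - 2 * Qm st st' z w x := rfl
    have eQ : Qbar st st' z w x = (Qm st st z w x + Qm st' st' z w x) / 2 := rfl
    have eG : Qdiff st st' z w x = Qm st st z w x - Qm st' st' z w x := rfl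
    rw [eG, eQ]
    rw [eP] at h1 ⊢
    linarith
  obtain ⟨hRHSi, e2⟩ := integral3 hPe hZ hGd (Measure.infinitePi fun _ : V => κ)
  have step1 := integral_mono_ae (hLHS.integrable (Measure.infinitePi fun _ : V => κ)) hRHSi hpt
  refine step1.trans ?_
  rw [e2, integral_Pe_eq hG hθ0 hθ0' hθ hθ' hzw h]
  have h3 := T_le (st := st) (st' := st') hG hθ0 hθ0' hθ hθ' hrev hrev' h
  have h6 := mul_le_mul_of_nonneg_left h3 hD0
  linarith

/-- (L3) in the form used here. -/
theorem L3_use {C₃ : ℝ} (hC₃ : 0 < C₃) {p y p₀ y₀ : V} (h₀ : G.Adj p₀ y₀)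
    (hL3 : ∫ x, Qdiff st st' p y x ^ 2 ∂(Measure.infinitePi fun _ : V => κ) ≤
        C₃ * (∫ x, ((st.b p₀ y₀ x ^ 2 - st'.b p₀ y₀ x ^ 2) * Qbar st st' p₀ y₀ x) ^ 2
              ∂(Measure.infinitePi fun _ : V => κ) +
          (∫ x, Qdiff st st' p₀ y₀ x ∂(Measure.infinitePi fun _ : V => κ)) ^ 2)) :
    ∫ x, Qdiff st st' p y x ^ 2 ∂(Measure.infinitePi fun _ : V => κ) ≤
      C₃ * (4 * XX st st' κ p₀ y₀ + (∫ x, Qdiff st st' p₀ y₀ x ∂(Measure.infinitePi fun _ : V => κ)) ^ 2) := by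
  have ht := theta_le_one hG hθ
  have ht' := theta_le_one hG hθ'
  have hX := (bm_XX (st := st) (st' := st') hG hθ0 hθ0' hθ hθ' h₀).integrable (Measure.infinitePi fun _ : V => κ)
  have h1 : ∫ x, ((st.b p₀ y₀ x ^ 2 - st'.b p₀ y₀ x ^ 2) * Qbar st st' p₀ y₀ x) ^ 2
        ∂(Measure.infinitePi fun _ : V => κ) ≤ 4 * XX st st' κ p₀ y₀ := by
    simp only [XX]
    rw [← integral_const_mul]
    refine integral_mono ?_ (hX.const_mul _) fun x => ?_
    · exact ((((bm_b st hθ0 p₀ y₀).pow2.sub (bm_b st' hθ0' p₀ y₀).pow2).mul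
        (bm_Qbar hG hθ0 hθ0' hθ hθ' h₀)).pow2).integrable _
    · exact L3_real (st.b_nonneg _ _ x) ((st.b_le _ _ x).trans ht) (st'.b_nonneg _ _ x) ((st'.b_le _ _ x).trans ht')
  refine hL3.trans (mul_le_mul_of_nonneg_left ?_ hC₃.le)
  linarith

end

end Bounds

section Weighted

variable (st : FState G E θ) (h : V → (V → E) → ℝ)

/-- `Ψ_r`: recursion of the `h`-weighted level sums. -/
noncomputable def Psi : ℕ → V → V → (V → E) → ℝ
  | 0, p, y, x => st.b p y x ^ 2 * h y x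
  | r + 1, p, y, x => Lop st st (Psi r) p y x

/-- `W_r`: the terms of `totalWeighted` -/
noncomputable def WW (r : ℕ) (v : V) (x : V → E) : ℝ :=
  ∑ u ∈ sphere G v r, h u x * (st.c v x * pathProd G (fun a b => st.b a b x) v u) ^ 2

variable {st h}

theorem adjFam_Psi (hθ0 : 0 ≤ θ) (hB : ∀ a, BM (h a))
    (heq : ∀ (g : G ≃g G) a x, h a (x ∘ g) = h (g a) x) (r : ℕ) : AdjFam G (Psi st h r) := by
  induction r with
  | zero =>
    constructor
    · intro p y _
      exact (bm_b st hθ0 p y).pow2.mul (hB y)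
    · intro g p y x
      simp only [Psi, st.equiv_b, heq]
  | succ r ih =>
    have := AdjFam.lop (st := st) (st' := st) hθ0 hθ0 ih
    exact this

theorem Psi_eq (hG : RegTree G D) (r : ℕ) {p y : V} (hpy : G.Adj p y) (x : V → E) :
    st.b p y x ^ 2 * ∑ u ∈ desc G r p y, h u x * pathProd G (fun a b => st.b a b x) y u ^ 2
      = Psi st h r p y x := by
  induction r generalizing p y with
  | zero =>
    simp [desc, Psi, pathProd_self]
  | succ r ih =>
    rw [hG.sum_desc_succ hpy]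
    have : ∀ z ∈ ch G p y, ∑ u ∈ desc G r y z, h u x * pathProd G (fun a b => st.b a b x) y u ^ 2
        = Psi st h r y z x := by
      intro z hz
      have hyz := (mem_ch.1 hz).1
      rw [← ih hyz, Finset.mul_sum]
      refine Finset.sum_congr rfl fun u hu => ?_
      rw [pathProd_of_mem_desc hG hyz hu]
      ring
    rw [Finset.sum_congr rfl this]
    simp only [Psi, Lop]
    ring

theorem WW_zero (v : V) (x : V → E) : WW st h 0 v x = h v x * st.c v x ^ 2 := by
  simp [WW, sphere, pathProd_self]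

theorem WW_succ (hG : RegTree G D) (r : ℕ) (v : V) (x : V → E) :
    WW st h (r + 1) v x = ∑ y ∈ G.neighborFinset v, st.c v x * st.c v x * Psi st h r v y x := by
  simp only [WW]
  rw [hG.sum_sphere_succ]
  refine Finset.sum_congr rfl fun y hy => ?_
  have hvy : G.Adj v y := by simpa using hy
  rw [← Psi_eq hG r hvy x, Finset.mul_sum, Finset.mul_sum]
  refine Finset.sum_congr rfl fun u hu => ?_
  rw [pathProd_of_mem_desc hG hvy hu]
  ring

theorem Bs_Psi (hG : RegTree G D) (hθ0 : 0 ≤ θ) (hB : ∀ a, BM (h a))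
    (heq : ∀ (g : G ≃g G) a x, h a (x ∘ g) = h (g a) x)
    (hrev : ∀ p y, G.Adj p y → ∀ᵐ x ∂(Measure.infinitePi fun _ : V => κ), st.c p x * st.b p y x = st.c y x * st.b y p x)
    (r s : ℕ) {p y : V} (hpy : G.Adj p y) :
    Bs st st κ s (Psi st h r) p y = Bs st st κ (s + r) (Psi st h 0) p y := by
  induction r generalizing s with
  | zero => rfl
  | succ r ih =>
    have e : Psi st h (r + 1) = Lop st st (Psi st h r) := by
      funext p y x; rfl
    rw [e, Bs_Lop hG hθ0 hθ0 hrev hrev (adjFam_Psi hθ0 hB heq r) s hpy, ih]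
    congr 1
    omega

/-- The swap. -/
theorem Bs_Psi_zero (hG : RegTree G D) (hθ0 : 0 ≤ θ) (hbb : (D : ℝ) * θ * θ < 1) (hB : ∀ a, BM (h a))
    (heq : ∀ (g : G ≃g G) a x, h a (x ∘ g) = h (g a) x)
    (hrev : ∀ p y, G.Adj p y → ∀ᵐ x ∂(Measure.infinitePi fun _ : V => κ), st.c p x * st.b p y x = st.c y x * st.b y p x)
    (s : ℕ) {v y : V} (hvy : G.Adj v y) :
    Bs st st κ s (Psi st h 0) v y =
      ∫ x, h v x * (st.c v x * st.c v x * (st.b v y x * st.b v y x * Lv st st s v y x))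
        ∂(Measure.infinitePi fun _ : V => κ) := by
  obtain ⟨g, hg⟩ := hG.exists_aut_of_isNB (l := [v, y]) (l' := [y, v]) hvy hvy.symm rfl
  simp only [List.map_cons, List.map_nil, List.cons.injEq, and_true] at hg
  have hbm : BM (fun x => h y x * (st.c y x * st.c y x * (st.b y v x * st.b y v x * Lv st st s y v x))) :=
    (hB y).mul (((bm_c st y).mul (bm_c st y)).mul
      (((bm_b st hθ0 y v).mul (bm_b st hθ0 y v)).mul (bm_Lv hG hθ0 hθ0 st st s hvy.symm)))
  have key := integral_comp_equiv κ g.toEquiv hbm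
  have e1 : Bs st st κ s (Psi st h 0) v y =
      ∫ x, h y x * (st.c y x * st.c y x * (st.b y v x * st.b y v x * Lv st st s y v x))
        ∂(Measure.infinitePi fun _ : V => κ) := by
    simp only [Bs]
    refine integral_congr_ae ?_
    filter_upwards [hrev v y hvy] with x hx
    show st.c v x * st.c v x * Lv st st s y v x * (st.b v y x ^ 2 * h y x) = _
    have e : st.c v x * st.c v x * (st.b v y x * st.b v y x) = st.c y x * st.c y x * (st.b y v x * st.b y v x) := by
      calc st.c v x * st.c v x * (st.b v y x * st.b v y x)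
          = (st.c v x * st.b v y x) * (st.c v x * st.b v y x) := by ring
        _ = (st.c y x * st.b y v x) * (st.c y x * st.b y v x) := by rw [hx]
        _ = _ := by ring
    calc st.c v x * st.c v x * Lv st st s y v x * (st.b v y x ^ 2 * h y x)
        = h y x * ((st.c v x * st.c v x * (st.b v y x * st.b v y x)) * Lv st st s y v x) := by ring
      _ = _ := by rw [e]; ring
  rw [e1, ← key]
  refine integral_congr_ae (Eventually.of_forall fun x => ?_)
  show h y (x ∘ g) * (st.c y (x ∘ g) * st.c y (x ∘ g) * (st.b y v (x ∘ g) * st.b y v (x ∘ g) * Lv st st s y v (x ∘ g))) = _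
  rw [heq, st.equiv_c, st.equiv_b, Lv_aut, hg.1, hg.2]

/-- Termwise identity. -/
theorem integral_WW (hG : RegTree G D) (hθ0 : 0 ≤ θ) (hbb : (D : ℝ) * θ * θ < 1) (hB : ∀ a, BM (h a))
    (heq : ∀ (g : G ≃g G) a x, h a (x ∘ g) = h (g a) x)
    (hrev : ∀ p y, G.Adj p y → ∀ᵐ x ∂(Measure.infinitePi fun _ : V => κ), st.c p x * st.b p y x = st.c y x * st.b y p x)
    (r : ℕ) (v : V) :
    ∫ x, WW st h r v x ∂(Measure.infinitePi fun _ : V => κ) =
      ∫ x, h v x * st.c v x ^ 2 * vLev G (fun a c => st.b a c x) (fun a c => st.b a c x) r v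
        ∂(Measure.infinitePi fun _ : V => κ) := by
  cases r with
  | zero =>
    simp only [WW_zero, vLev_zero, mul_one]
  | succ r =>
    simp only [WW_succ hG]
    rw [integral_finsetSum]
    · have e : ∀ x, h v x * st.c v x ^ 2 * vLev G (fun a c => st.b a c x) (fun a c => st.b a c x) (r + 1) v
          = ∑ y ∈ G.neighborFinset v, h v x * (st.c v x * st.c v x * (st.b v y x * st.b v y x * Lv st st r v y x)) := by
        intro x
        rw [vLev_succ hG, Finset.mul_sum]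
        refine Finset.sum_congr rfl fun y _ => ?_
        simp only [Lv]
        ring
      simp only [e]
      rw [integral_finsetSum]
      · refine Finset.sum_congr rfl fun y hy => ?_
        have hvy : G.Adj v y := by simpa using hy
        rw [← Bs_Psi_zero hG hθ0 hbb hB heq hrev r hvy]
        have := Bs_Psi (κ := κ) hG hθ0 hB heq hrev r 0 hvy
        rw [zero_add] at this
        rw [← this]
        simp only [Bs]
        refine integral_congr_ae (Eventually.of_forall fun x => ?_)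
        simp [Lv, levMix]
      · intro y hy
        have hvy : G.Adj v y := by simpa using hy
        exact ((hB v).mul (((bm_c st v).mul (bm_c st v)).mul
          (((bm_b st hθ0 v y).mul (bm_b st hθ0 v y)).mul (bm_Lv hG hθ0 hθ0 st st r hvy)))).integrable _
    · intro y hy
      have hvy : G.Adj v y := by simpa using hy
      exact (((bm_c st v).mul (bm_c st v)).mul ((adjFam_Psi hθ0 hB heq r).bm v y hvy)).integrable _

end Weighted

end Stochastic

/-- (L4, vertex observable).  `Δb`, `Q̄` at a fixed directed edge `(v,y)`. -/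
theorem total_diff_le_proved (D : ℕ) : ∃ C : ℝ, 0 < C ∧
    ∀ {V : Type u} {G : SimpleGraph V} [G.LocallyFinite] (_ : RegTree G D) {E : Type v} [MeasurableSpace E]
      {κ : Measure E} [IsProbabilityMeasure κ] {θ θ' : ℝ} (_ : 0 ≤ θ) (_ : 0 ≤ θ')
      (_ : (D : ℝ) * θ ^ 2 < 1) (_ : (D : ℝ) * θ' ^ 2 < 1)
      (st : FState G E θ) (st' : FState G E θ')
      (_ : ∀ p y, G.Adj p y → ∀ᵐ x ∂(Measure.infinitePi fun _ : V => κ), st.c p x * st.b p y x = st.c y x * st.b y p x)
      (_ : ∀ p y, G.Adj p y → ∀ᵐ x ∂(Measure.infinitePi fun _ : V => κ), st'.c p x * st'.b p y x = st'.c y x * st'.b y p x)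
      {v y : V} (_ : G.Adj v y),
      ∫ x, totalDiff G (st.c v x) (st'.c v x) (fun a b => st.b a b x) (fun a b => st'.b a b x) v
          ∂(Measure.infinitePi fun _ : V => κ) ≤
        C * (∫ x, (st.b v y x - st'.b v y x) ^ 2 * (Qbar st st' v y x ^ 2 + Qbar st st' y v x ^ 2)
              ∂(Measure.infinitePi fun _ : V => κ) +
          ∫ x, (st.c v x - st'.c v x) ^ 2 * (QbarV st st' v x + 1) ∂(Measure.infinitePi fun _ : V => κ) +
          (∫ x, Qdiff st st' v y x ∂(Measure.infinitePi fun _ : V => κ)) ^ 2) := by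
  obtain ⟨C₃, hC₃, hL3⟩ := norm_Qdiff_le.{u, v} D
  set K : ℝ := ((D : ℝ) + 1) ^ 2 with hK
  have hK0 : 0 ≤ K := by positivity
  have hD1K : (D : ℝ) + 1 ≤ K := by
    have : (0 : ℝ) ≤ D := Nat.cast_nonneg D
    rw [hK]; nlinarith
  refine ⟨5 * K + 10 * (K * C₃) + 1, by positivity, ?_⟩
  intro V G _ hG E _ κ _ θ θ' hθ0 hθ0' hθ hθ' st st' hrev hrev' v y hvy
  have core := total_core (κ := κ) (st := st) (st' := st') hG hθ0 hθ0' hθ hθ' hrev hrev' hvy
  have hA := L3_use (κ := κ) (st := st) (st' := st') hG hθ0 hθ0' hθ hθ' hC₃ hvy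
    (hL3 hG hθ0 hθ0' hθ hθ' st st' hvy hvy)
  set X := XX st st' κ v y with hXdef
  have hX : 0 ≤ X := XX_nonneg v y
  set Z := ∫ x, (st.c v x - st'.c v x) ^ 2 * (QbarV st st' v x + 1) ∂(Measure.infinitePi fun _ : V => κ) with hZdef
  have hZ : 0 ≤ Z := by
    refine integral_nonneg fun x => ?_
    have h1 : 0 ≤ QbarV st st' v x := by
      have hs := slopePair_of (st := st) (st' := st') hθ0 hθ0' hθ hθ' x
      have h1 := (hasSum_vLev hG hs.θ0 hs.θ0 hs.hbb hs.b0 hs.b1 hs.b0 hs.b1 v).nonneg (fun r =>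
        Finset.sum_nonneg fun u _ => mul_self_nonneg _)
      have h2 := (hasSum_vLev hG hs.θ0' hs.θ0' hs.hbb' hs.b0' hs.b1' hs.b0' hs.b1' v).nonneg (fun r =>
        Finset.sum_nonneg fun u _ => mul_self_nonneg _)
      simp only [QbarV, FState.QV]
      linarith
    show 0 ≤ (st.c v x - st'.c v x) ^ 2 * (QbarV st st' v x + 1)
    positivity
  set Y := (∫ x, Qdiff st st' v y x ∂(Measure.infinitePi fun _ : V => κ)) ^ 2 with hYdef
  have hY : 0 ≤ Y := sq_nonneg _
  set A := ∫ x, Qdiff st st' v y x ^ 2 ∂(Measure.infinitePi fun _ : V => κ) with hAdef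
  have hA0 : 0 ≤ A := integral_nonneg fun x => sq_nonneg _
  have hgoal : ∫ x, (st.b v y x - st'.b v y x) ^ 2 * (Qbar st st' v y x ^ 2 + Qbar st st' y v x ^ 2)
      ∂(Measure.infinitePi fun _ : V => κ) = X := rfl
  rw [hgoal]
  refine core.trans ?_
  have h1 : ((D : ℝ) + 1) * (X + A / 2) ≤ K * (X + A / 2) :=
    mul_le_mul_of_nonneg_right hD1K (by positivity)
  have h2 : K * A ≤ K * (C₃ * (4 * X + Y)) := mul_le_mul_of_nonneg_left hA hK0
  have e3 : ((D : ℝ) + 1) ^ 2 * (8 * X + 2 * A) / 2 = 4 * (K * X) + K * A := by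
    rw [hK]; ring
  have p1 := mul_nonneg (mul_nonneg hK0 hC₃.le) hX
  have p2 := mul_nonneg (mul_nonneg hK0 hC₃.le) hZ
  have p3 := mul_nonneg (mul_nonneg hK0 hC₃.le) hY
  have p4 := mul_nonneg hK0 hX
  have p5 := mul_nonneg hK0 hZ
  have p6 := mul_nonneg hK0 hY
  have p7 := mul_nonneg hK0 hA0
  rw [e3]
  nlinarith

/-- (L4, pair observable): prefactors `n,n'` (fixed edge `(z,w)`) with `|n| ≤ c_w`, `|n'| ≤ c'_w` a.e. -/
theorem side_diff_le_proved (D : ℕ) : ∃ C : ℝ, 0 < C ∧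
    ∀ {V : Type u} {G : SimpleGraph V} [G.LocallyFinite] (_ : RegTree G D) {E : Type v} [MeasurableSpace E]
      {κ : Measure E} [IsProbabilityMeasure κ] {θ θ' : ℝ} (_ : 0 ≤ θ) (_ : 0 ≤ θ')
      (_ : (D : ℝ) * θ ^ 2 < 1) (_ : (D : ℝ) * θ' ^ 2 < 1)
      (st : FState G E θ) (st' : FState G E θ')
      (_ : ∀ p y, G.Adj p y → ∀ᵐ x ∂(Measure.infinitePi fun _ : V => κ), st.c p x * st.b p y x = st.c y x * st.b y p x)
      (_ : ∀ p y, G.Adj p y → ∀ᵐ x ∂(Measure.infinitePi fun _ : V => κ), st'.c p x * st'.b p y x = st'.c y x * st'.b y p x)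
      {z w y : V} (_ : G.Adj z w) (_ : G.Adj w y) (n n' : (V → E) → ℝ) (_ : Measurable n) (_ : Measurable n')
      (_ : ∀ᵐ x ∂(Measure.infinitePi fun _ : V => κ), |n x| ≤ st.c w x)
      (_ : ∀ᵐ x ∂(Measure.infinitePi fun _ : V => κ), |n' x| ≤ st'.c w x),
      ∫ x, sideDiff G (n x) (n' x) (fun a b => st.b a b x) (fun a b => st'.b a b x) z w
          ∂(Measure.infinitePi fun _ : V => κ) ≤
        C * (∫ x, (st.b w y x - st'.b w y x) ^ 2 * (Qbar st st' w y x ^ 2 + Qbar st st' y w x ^ 2)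
              ∂(Measure.infinitePi fun _ : V => κ) +
          ∫ x, (n x - n' x) ^ 2 * (Qbar st st' z w x + 1) ∂(Measure.infinitePi fun _ : V => κ) +
          (∫ x, Qdiff st st' w y x ∂(Measure.infinitePi fun _ : V => κ)) ^ 2) := by
  obtain ⟨C₃, hC₃, hL3⟩ := norm_Qdiff_le.{u, v} D
  have hD0 : (0 : ℝ) ≤ D := Nat.cast_nonneg D
  refine ⟨(D : ℝ) + 1 + 2 * (((D : ℝ) + 1) * C₃), by positivity, ?_⟩
  intro V G _ hG E _ κ _ θ θ' hθ0 hθ0' hθ hθ' st st' hrev hrev' z w y hzw hwy n n' hn hn' hnb hnb'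
  -- truncation
  let tr : ℝ → ℝ := fun t => max (-1) (min 1 t)
  have htr : ∀ t, |t| ≤ 1 → tr t = t := by
    intro t ht
    have := abs_le.1 ht
    simp only [tr]
    rw [min_eq_right this.2, max_eq_right this.1]
  have htrm : Measurable tr := measurable_const.max (measurable_const.min measurable_id)
  have hbtr : ∀ t, |tr t| ≤ 1 := by
    intro t
    simp only [tr]
    rw [abs_le]
    constructor
    · exact le_max_left _ _
    · exact max_le (by norm_num) (min_le_left _ _)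
  have hN : Hoeffding.BM (fun x => tr (n x)) := ⟨htrm.comp hn, 1, fun x => hbtr _⟩
  have hN' : Hoeffding.BM (fun x => tr (n' x)) := ⟨htrm.comp hn', 1, fun x => hbtr _⟩
  have ae1 : ∀ᵐ x ∂(Measure.infinitePi fun _ : V => κ), tr (n x) = n x := by
    filter_upwards [hnb] with x hx
    exact htr _ (hx.trans (st.c_le w x))
  have ae2 : ∀ᵐ x ∂(Measure.infinitePi fun _ : V => κ), tr (n' x) = n' x := by
    filter_upwards [hnb'] with x hx
    exact htr _ (hx.trans (st'.c_le w x))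
  have core := side_core (κ := κ) (st := st) (st' := st') hG hθ0 hθ0' hθ hθ' hrev hrev' hzw hwy hN hN'
    (by filter_upwards [hnb, ae1] with x hx hx1; rw [hx1]; exact hx)
    (by filter_upwards [hnb', ae2] with x hx hx1; rw [hx1]; exact hx)
  have e1 : ∫ x, sideDiff G (tr (n x)) (tr (n' x)) (fun a b => st.b a b x) (fun a b => st'.b a b x) z w
        ∂(Measure.infinitePi fun _ : V => κ)
      = ∫ x, sideDiff G (n x) (n' x) (fun a b => st.b a b x) (fun a b => st'.b a b x) z w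
        ∂(Measure.infinitePi fun _ : V => κ) := by
    refine integral_congr_ae ?_
    filter_upwards [ae1, ae2] with x h1 h2
    rw [h1, h2]
  have e2 : ∫ x, (tr (n x) - tr (n' x)) ^ 2 * (Qbar st st' z w x + 1) ∂(Measure.infinitePi fun _ : V => κ)
      = ∫ x, (n x - n' x) ^ 2 * (Qbar st st' z w x + 1) ∂(Measure.infinitePi fun _ : V => κ) := by
    refine integral_congr_ae ?_
    filter_upwards [ae1, ae2] with x h1 h2
    rw [h1, h2]
  rw [e1, e2] at core
  have hA := L3_use (κ := κ) (st := st) (st' := st') hG hθ0 hθ0' hθ hθ' hC₃ hwy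
    (hL3 hG hθ0 hθ0' hθ hθ' st st' hwy hwy)
  have hA' := L3_use (κ := κ) (st := st) (st' := st') hG hθ0 hθ0' hθ hθ' hC₃ hwy
    (hL3 hG hθ0 hθ0' hθ hθ' st st' hzw hwy)
  set X := XX st st' κ w y with hXdef
  have hX : 0 ≤ X := XX_nonneg w y
  set Z := ∫ x, (n x - n' x) ^ 2 * (Qbar st st' z w x + 1) ∂(Measure.infinitePi fun _ : V => κ) with hZdef
  have hZ : 0 ≤ Z := by
    refine integral_nonneg fun x => ?_
    have h1 := Qbar_ge_one (st := st) (st' := st') hG hθ0 hθ0' hθ hθ' hzw x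
    show 0 ≤ (n x - n' x) ^ 2 * (Qbar st st' z w x + 1)
    have : 0 ≤ Qbar st st' z w x + 1 := by linarith
    positivity
  set Y := (∫ x, Qdiff st st' w y x ∂(Measure.infinitePi fun _ : V => κ)) ^ 2 with hYdef
  have hY : 0 ≤ Y := sq_nonneg _
  have hgoal : ∫ x, (st.b w y x - st'.b w y x) ^ 2 * (Qbar st st' w y x ^ 2 + Qbar st st' y w x ^ 2)
      ∂(Measure.infinitePi fun _ : V => κ) = X := rfl
  rw [hgoal]
  refine core.trans ?_
  set A := ∫ x, Qdiff st st' w y x ^ 2 ∂(Measure.infinitePi fun _ : V => κ) with hAdef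
  set A' := ∫ x, Qdiff st st' z w x ^ 2 ∂(Measure.infinitePi fun _ : V => κ) with hA'def
  have h1 : (D : ℝ) * A ≤ (D : ℝ) * (C₃ * (4 * X + Y)) := mul_le_mul_of_nonneg_left hA hD0
  have p1 := mul_nonneg (mul_nonneg hD0 hC₃.le) hX
  have p2 := mul_nonneg (mul_nonneg hD0 hC₃.le) hZ
  have p3 := mul_nonneg (mul_nonneg hD0 hC₃.le) hY
  have p4 := mul_nonneg hD0 hX
  have p5 := mul_nonneg hD0 hZ
  have p6 := mul_nonneg hD0 hY
  have p7 := mul_nonneg hC₃.le hX
  have p8 := mul_nonneg hC₃.le hZ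
  have p9 := mul_nonneg hC₃.le hY
  nlinarith

/-- (L5) mass transport for the `ε⁴` term: `h` equivariant nonnegative bounded vertex field. -/
theorem total_weighted_eq_proved {V : Type u} {G : SimpleGraph V} [G.LocallyFinite] {D : ℕ}
    {E : Type v} [MeasurableSpace E] {κ : Measure E} [IsProbabilityMeasure κ]
    (hG : RegTree G D) {θ : ℝ} (hθ0 : 0 ≤ θ) (hθ : (D : ℝ) * θ ^ 2 < 1)
    (st : FState G E θ)
    (hrev : ∀ p y, G.Adj p y → ∀ᵐ x ∂(Measure.infinitePi fun _ : V => κ), st.c p x * st.b p y x = st.c y x * st.b y p x)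
    (h : V → (V → E) → ℝ) (hhm : ∀ a, Measurable (h a)) (hh0 : ∀ a x, 0 ≤ h a x)
    (hhb : ∃ B, ∀ a x, h a x ≤ B)
    (heq : ∀ (g : G ≃g G) a x, h a (x ∘ g) = h (g a) x) (v : V) :
    ∫ x, totalWeighted G (fun u => h u x) (st.c v x) (fun a b => st.b a b x) v ∂(Measure.infinitePi fun _ : V => κ) =
      ∫ x, h v x * (st.c v x ^ 2 * st.QV v x) ∂(Measure.infinitePi fun _ : V => κ) := by
  obtain ⟨B₀, hB₀⟩ := hhb
  set B := |B₀| with hBdef
  have hB0 : 0 ≤ B := abs_nonneg _
  have hb : ∀ a x, h a x ≤ B := fun a x => (hB₀ a x).trans (le_abs_self _)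
  have hBM : ∀ a, Hoeffding.BM (h a) := fun a =>
    ⟨hhm a, B, fun x => by rw [abs_of_nonneg (hh0 a x)]; exact hb a x⟩
  have hbb : (D : ℝ) * θ * θ < 1 := by nlinarith
  have hvLev : ∀ x, HasSum (fun r => vLev G (fun a c => st.b a c x) (fun a c => st.b a c x) r v) (st.QV v x) := fun x =>
    hasSum_vLev hG hθ0 hθ0 hbb (fun p y => st.b_nonneg p y x) (fun p y => st.b_le p y x)
      (fun p y => st.b_nonneg p y x) (fun p y => st.b_le p y x) v
  have hvLev0 : ∀ x r, 0 ≤ vLev G (fun a c => st.b a c x) (fun a c => st.b a c x) r v := fun x r =>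
    Finset.sum_nonneg fun u _ => mul_self_nonneg _
  have hQV : Hoeffding.BM (st.QV v) := bm_QmV hG hθ0 hθ0 hbb st st v
  have hvLevm : ∀ r, Measurable (fun x => vLev G (fun a c => st.b a c x) (fun a c => st.b a c x) r v) := by
    intro r
    cases r with
    | zero => simp only [vLev_zero]; exact measurable_const
    | succ r =>
      simp only [vLev_succ hG]
      refine Finset.measurable_sum _ fun y _ => ?_
      exact ((st.meas_b v y).mul (st.meas_b v y)).mul (measurable_Lv st st r v y)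
  have hWm : ∀ r, Measurable (WW st h r v) := by
    intro r
    cases r with
    | zero =>
      have : WW st h 0 v = fun x => h v x * st.c v x ^ 2 := by funext x; exact WW_zero v x
      rw [this]
      exact (hhm v).mul ((st.meas_c v).pow_const 2)
    | succ r =>
      have : WW st h (r + 1) v = fun x => ∑ y ∈ G.neighborFinset v, st.c v x * st.c v x * Psi st h r v y x := by
        funext x; exact WW_succ hG r v x
      rw [this]
      refine Finset.measurable_sum _ fun y hy => ?_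
      have hvy : G.Adj v y := by simpa using hy
      exact ((st.meas_c v).mul (st.meas_c v)).mul ((adjFam_Psi hθ0 hBM heq r).bm v y hvy).meas
  have hW0 : ∀ r x, 0 ≤ WW st h r v x := fun r x =>
    Finset.sum_nonneg fun u _ => mul_nonneg (hh0 u x) (sq_nonneg _)
  have hWle : ∀ r x, WW st h r v x ≤ B * vLev G (fun a c => st.b a c x) (fun a c => st.b a c x) r v := by
    intro r x
    simp only [WW, vLev]
    rw [Finset.mul_sum]
    refine Finset.sum_le_sum fun u _ => ?_
    have hc : st.c v x ^ 2 ≤ 1 := by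
      have := st.c_nonneg v x
      have := st.c_le v x
      nlinarith
    set P := pathProd G (fun a b => st.b a b x) v u
    have e : (st.c v x * P) ^ 2 = st.c v x ^ 2 * (P * P) := by ring
    rw [e]
    calc h u x * (st.c v x ^ 2 * (P * P)) ≤ B * (1 * (P * P)) :=
          mul_le_mul (hb u x) (mul_le_mul_of_nonneg_right hc (mul_self_nonneg _))
            (mul_nonneg (sq_nonneg _) (mul_self_nonneg _)) hB0
      _ = _ := by ring
  have hsumm : ∀ x, Summable fun r => B * vLev G (fun a c => st.b a c x) (fun a c => st.b a c x) r v :=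
    fun x => ((hvLev x).mul_left B).summable
  have htsum : ∀ x, ∑' r, B * vLev G (fun a c => st.b a c x) (fun a c => st.b a c x) r v = B * st.QV v x :=
    fun x => ((hvLev x).mul_left B).tsum_eq
  have hbdi : Integrable (fun x => ∑' r, B * vLev G (fun a c => st.b a c x) (fun a c => st.b a c x) r v)
      (Measure.infinitePi fun _ : V => κ) := by
    simp only [htsum]
    exact (hQV.const_mul B).integrable _
  have hS1 : HasSum (fun r => ∫ x, WW st h r v x ∂(Measure.infinitePi fun _ : V => κ))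
      (∫ x, totalWeighted G (fun u => h u x) (st.c v x) (fun a b => st.b a b x) v ∂(Measure.infinitePi fun _ : V => κ)) := by
    refine hasSum_integral_of_dominated_convergence
      (fun r x => B * vLev G (fun a c => st.b a c x) (fun a c => st.b a c x) r v)
      (fun r => (hWm r).aestronglyMeasurable) (fun r => Eventually.of_forall fun x => ?_)
      (Eventually.of_forall hsumm) hbdi (Eventually.of_forall fun x => ?_)
    · rw [Real.norm_eq_abs, abs_of_nonneg (hW0 r x)]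
      exact hWle r x
    · have : Summable fun r => WW st h r v x :=
        Summable.of_nonneg_of_le (fun r => hW0 r x) (fun r => hWle r x) (hsumm x)
      exact this.hasSum
  have hS2 : HasSum (fun r => ∫ x, h v x * st.c v x ^ 2 * vLev G (fun a c => st.b a c x) (fun a c => st.b a c x) r v
        ∂(Measure.infinitePi fun _ : V => κ))
      (∫ x, h v x * (st.c v x ^ 2 * st.QV v x) ∂(Measure.infinitePi fun _ : V => κ)) := by
    refine hasSum_integral_of_dominated_convergence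
      (fun r x => B * vLev G (fun a c => st.b a c x) (fun a c => st.b a c x) r v)
      (fun r => (((hhm v).mul ((st.meas_c v).pow_const 2)).mul (hvLevm r)).aestronglyMeasurable)
      (fun r => Eventually.of_forall fun x => ?_)
      (Eventually.of_forall hsumm) hbdi (Eventually.of_forall fun x => ?_)
    · have hc : st.c v x ^ 2 ≤ 1 := by
        have := st.c_nonneg v x
        have := st.c_le v x
        nlinarith
      have h1 := hh0 v x
      have h2 := hb v x
      have h3 := hvLev0 x r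
      rw [Real.norm_eq_abs, abs_of_nonneg (mul_nonneg (mul_nonneg h1 (sq_nonneg _)) h3)]
      have h4 : h v x * st.c v x ^ 2 ≤ B := by
        calc _ ≤ B * 1 := mul_le_mul h2 hc (sq_nonneg _) hB0
          _ = B := mul_one _
      exact mul_le_mul_of_nonneg_right h4 h3
    · have := (hvLev x).mul_left (h v x * st.c v x ^ 2)
      rw [← mul_assoc]
      exact this
  have hEq : (fun r => ∫ x, WW st h r v x ∂(Measure.infinitePi fun _ : V => κ))
      = fun r => ∫ x, h v x * st.c v x ^ 2 * vLev G (fun a c => st.b a c x) (fun a c => st.b a c x) r v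
        ∂(Measure.infinitePi fun _ : V => κ) := by
    funext r
    exact integral_WW hG hθ0 hbb hBM heq hrev r v
  rw [hEq] at hS1
  exact hS1.unique hS2

end Crest.Agent.Lib.IsingFIID
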